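import Vale.Agent.Lib.P219.A.CDefs
import Vale.Agent.Lib.P219.Ce.Raw

/-!
# P219 rigidity: definitions

Equality case of the sharp isoperimetric inequality.  Plan: for a minimising sequence `u_j → 1_Ω`
the whole slack `Def` of the pair inequality tends to `0`; hence for all boundary points `p ≠ q` the
defect `Eraw` of the certificate vanishes, which gives `th = 1` and `|w|² = 2 R ⟨ν, w⟩`.
-/

namespace Vale.Agent.Lib.P219

open MeasureTheory Set Filter Topology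
open scoped ENNReal

noncomputable section

/-- the chord term `c c' (d r - f c - f c')₊ / r^(n-1)` for `c, c' > 0`, and `0` otherwise -/
def mker (n : ℕ) (d : ℝ) (f : ℝ → ℝ) (r c c' : ℝ) : ℝ :=
  max c 0 * max c' 0 * max (d * r - f |c| - f |c'|) 0 / r ^ (n - 1)

namespace RawCert

variable {n : ℕ} (c : RawCert n)

/-- the pair kernel of a raw certificate -/
def B (r x y : ℝ) : ℝ :=
  c.a + ((c.ηr r y * (1 - x ^ 2) + c.η r y / r * (n - 2 + x ^ 2)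
        - |x| * |c.ηc r y| * Real.sqrt ((1 - x ^ 2) * (1 - y ^ 2)) / r - (n - 1) * x * c.η r y)
      + (c.ηr r x * (1 - y ^ 2) + c.η r x / r * (n - 2 + y ^ 2)
        - |y| * |c.ηc r x| * Real.sqrt ((1 - y ^ 2) * (1 - x ^ 2)) / r
        - (n - 1) * y * c.η r x)) / 2

/-- strict certificates: `B > 0`, and equality in the chord inequality forces `r = 2 c'` -/
structure Strict : Prop where
  B_pos : ∀ r x y, 0 < r → |x| ≤ 1 → |y| ≤ 1 → 0 < c.B r x y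
  strict : ∀ r x y, 0 < r → 0 < x → x ≤ 1 → 0 < y → y ≤ 1 →
    c.B r x y * r ^ (n - 1) = x * y * (c.d * r - c.f x - c.f y) → r = 2 * y

/-- `k` is the certificate `c` cut off at scale `δ` -/
structure CutOf (δ : ℝ) (k : Ker n) : Prop where
  a_eq : k.a = c.a
  d_eq : k.d = c.d
  f_eq : ∀ s, k.f s = c.f s + c.d * δ
  K_eq : k.K' = c.d * om n - c.a * (n * om n) + c.d * δ * (n * om n)
  B_eq : ∀ r x y, 2 * δ < r → k.B r x y = c.B r x y

end RawCert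

namespace HData

variable {n : ℕ} (H : HData n)

/-- kernel functional along a geodesic, flat Jacobian (`Lk` is the case `F = k.B`) -/
def LkF (F : ℝ → ℝ → ℝ → ℝ) (u : Ev n → ℝ) (ρ₀ : ℝ) (v : Ev n × Ev n) : ℝ≥0∞ :=
  ∫⁻ t in Ioi (0 : ℝ), ENNReal.ofReal (‖H.gr u v.1‖ * ‖H.gr u (H.fl t v).1‖
    * F (t / ρ₀) (-(H.cs u (H.fl t v))) (H.cs u v) * t ^ (n - 1))

/-- inner integral of the defect -/
def Gk (k : Ker n) (u : Ev n → ℝ) (ρ₀ : ℝ) (x : Ev n) : ℝ≥0∞ :=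
  ∫⁻ w, ENNReal.ofReal (‖H.gr u (H.Ex x w)‖
    * (k.B (‖w‖ / ρ₀) (H.cy u x w) (H.cx u x w) * H.th x w
      - mker n k.d k.f (‖w‖ / ρ₀) (H.cy u x w) (H.cx u x w)))

/-- the defect of the pair inequality -/
def Def (k : Ker n) (u : Ev n → ℝ) (ρ₀ : ℝ) : ℝ≥0∞ :=
  ∫⁻ x, ENNReal.ofReal ‖H.gr u x‖ * H.Gk k u ρ₀ x ∂H.vol

/-- pointwise defect of the raw certificate at the pair `(x, Ex x w)` with unit inner normals
`ν` at `x` and `ν'` at `Ex x w` -/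
def Eraw (c : RawCert n) (R : ℝ) (x w ν ν' : Ev n) : ℝ :=
  c.B (‖w‖ / R) (-(inner ℝ ν' (H.ve x w)) / ‖w‖) (inner ℝ ν w / ‖w‖)
    - mker n c.d c.f (‖w‖ / R) (-(inner ℝ ν' (H.ve x w)) / ‖w‖) (inner ℝ ν w / ‖w‖) / H.th x w

/-- a minimising sequence: `u_j → 1_Ω` in `L¹` and `A (u_j) → n ω^{1/n} |Ω|^{(n-1)/n}` -/
structure MinSeq (Ω K : Set (Ev n)) (u : ℕ → Ev n → ℝ) : Prop where
  smooth : ∀ j, ContDiff ℝ 1 (u j)
  supp : ∀ j, tsupport (u j) ⊆ K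
  nonneg : ∀ j x, 0 ≤ u j x
  le_one : ∀ j x, u j x ≤ 1
  conv : Tendsto (fun j => ∫ x, |u j x - Ω.indicator (1 : Ev n → ℝ) x| ∂H.vol) atTop (𝓝 0)
  A_lim : Tendsto (fun j => H.A (u j)) atTop
    (𝓝 (n * om n ^ ((1 : ℝ) / n) * (H.vol Ω).toReal ^ (((n : ℝ) - 1) / n)))

/-- `|∇ u_j|` charges every neighbourhood of `p` -/
def HasMass (u : ℕ → Ev n → ℝ) (p : Ev n) : Prop :=
  ∀ δ > 0, ∃ m > 0, ∀ᶠ j in atTop,
    ENNReal.ofReal m ≤ ∫⁻ x in Metric.ball p δ, ENNReal.ofReal ‖H.gr (u j) x‖ ∂H.vol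

end HData

/-- radius of the Euclidean ball of volume `m` -/
def rad (n : ℕ) (m : ℝ) : ℝ := (m / om n) ^ ((1 : ℝ) / n)

end

end Vale.Agent.Lib.P219
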