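import Mathlib.Analysis.Normed.Module.Connected
import Vale.Agent.Lib.P219.Defs

/-!
# P219 rigidity: a bounded open set whose frontier lies in a sphere is the ball

The ball `U₁` and the exterior `U₂ = {‖x - z‖ > R}` (connected as `n ≥ 2`: image of
`Ioi R × sphere 0 1`, `isConnected_sphere`) do not meet `frontier D`, so each of them is contained
in `D` or disjoint from `D` (`IsPreconnected.subset_or_disjoint...` or via the clopen set
`D ∩ U = closure D ∩ U`).  `U₂ ⊆ D` is impossible (bounded).  If `U₁ ∩ D = ∅` then `D ⊆ sphere`, which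
has empty interior (`interior_sphere`), contradiction.  So `ball ⊆ D ⊆ closedBall`, and
`D` is open, `interior_closedBall`.
-/

namespace Vale.Agent.Lib.P219

open MeasureTheory Set Filter Topology

private theorem topo_subset {X : Type*} [TopologicalSpace X] {U D : Set X}
    (hU : IsPreconnected U) (hD : IsOpen D) (hd : ∀ x ∈ U, x ∉ frontier D)
    (hne : (U ∩ D).Nonempty) : U ⊆ D := by
  refine hU.subset_left_of_subset_union (v := (closure D)ᶜ) hD isClosed_closure.isOpen_compl ?_ ?_ hne
  · exact disjoint_left.2 fun x hx hx' => hx' (subset_closure hx)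
  · intro x hx
    by_cases hxD : x ∈ D
    · exact Or.inl hxD
    · refine Or.inr fun hcl => hd x hx ?_
      rw [hD.frontier_eq]
      exact ⟨hcl, hxD⟩

private theorem topo_ext {n : ℕ} (hn : 2 ≤ n) (z : Ev n) {R : ℝ} (hR : 0 < R) :
    IsPreconnected {x : Ev n | R < dist x z} := by
  have hrank : 1 < Module.rank ℝ (Ev n) := by
    rw [rank_eq_card_basis (EuclideanSpace.basisFun (Fin n) ℝ).toBasis]
    simp only [Fintype.card_fin]
    exact_mod_cast hn
  have hs : IsPreconnected (Metric.sphere (0 : Ev n) 1) := isPreconnected_sphere hrank 0 1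
  have hp : IsPreconnected (Ioi R ×ˢ Metric.sphere (0 : Ev n) 1) := isPreconnected_Ioi.prod hs
  have hi := hp.image (fun p : ℝ × Ev n => z + p.1 • p.2) (by fun_prop)
  have he : (fun p : ℝ × Ev n => z + p.1 • p.2) '' (Ioi R ×ˢ Metric.sphere (0 : Ev n) 1)
      = {x : Ev n | R < dist x z} := by
    ext x
    constructor
    · rintro ⟨⟨t, w⟩, ⟨ht, hw⟩, rfl⟩
      have ht' : R < t := ht
      have hw' : ‖w‖ = 1 := by simpa using hw
      simp only [mem_ofPred_eq, dist_eq_norm, add_sub_cancel_left, norm_smul, hw', mul_one,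
        Real.norm_eq_abs]
      exact ht'.trans_le (le_abs_self t)
    · intro hx
      have hx' : R < ‖x - z‖ := by simpa [dist_eq_norm] using hx
      have h0 : 0 < ‖x - z‖ := hR.trans hx'
      refine ⟨(‖x - z‖, (‖x - z‖)⁻¹ • (x - z)), ⟨hx', ?_⟩, ?_⟩
      · simp [norm_smul, h0.ne']
      · simp only [smul_smul, mul_inv_cancel₀ h0.ne', one_smul, add_sub_cancel]
  rw [he] at hi
  exact hi

theorem eq_ball_of_frontier {n : ℕ} (hn : 2 ≤ n) {D : Set (Ev n)} (hD : IsOpen D)
    (hb : Bornology.IsBounded D) (hne : D.Nonempty) {z : Ev n} {R : ℝ} (hR : 0 < R)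
    (hf : frontier D ⊆ Metric.sphere z R) : D = Metric.ball z R := by
  have : Nonempty (Fin n) := ⟨⟨0, by omega⟩⟩
  have : Nontrivial (Ev n) := inferInstance
  -- the exterior does not meet `D`
  have h2 : D ⊆ Metric.closedBall z R := by
    by_contra hcon
    obtain ⟨x, hxD, hx⟩ := not_subset.1 hcon
    have hx' : x ∈ {x : Ev n | R < dist x z} := by
      simpa [Metric.mem_closedBall, not_le] using hx
    have hsub : {x : Ev n | R < dist x z} ⊆ D := by
      refine topo_subset (topo_ext hn z hR) hD ?_ ⟨x, hx', hxD⟩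
      intro y hy hyf
      have h1 := hf hyf
      rw [Metric.mem_sphere] at h1
      exact absurd h1 (ne_of_gt hy)
    obtain ⟨C, hC⟩ := hb.subset_closedBall z
    obtain ⟨v, hv⟩ := exists_norm_eq (Ev n) (show (0 : ℝ) ≤ max C R + 1 by
      have := le_max_right C R; linarith)
    have hm : z + v ∈ D := by
      apply hsub
      simp only [mem_ofPred_eq, dist_eq_norm, add_sub_cancel_left, hv]
      have := le_max_right C R
      linarith
    have h3 := hC hm
    rw [Metric.mem_closedBall, dist_eq_norm, add_sub_cancel_left, hv] at h3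
    have := le_max_left C R
    linarith
  have h3 : D ⊆ Metric.ball z R := by
    have h4 : D ⊆ interior (Metric.closedBall z R) := interior_maximal h2 hD
    rwa [interior_closedBall z hR.ne'] at h4
  refine Subset.antisymm h3 ?_
  obtain ⟨x, hx⟩ := hne
  refine topo_subset (convex_ball z R).isPreconnected hD ?_ ⟨x, h3 hx, hx⟩
  intro y hy hyf
  have h1 := hf hyf
  rw [Metric.mem_sphere] at h1
  rw [Metric.mem_ball] at hy
  exact absurd h1 (ne_of_lt hy)

end Vale.Agent.Lib.P219
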