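import Mathlib.Algebra.Order.Ring.Star
import Vale.Agent.Lib.P219.A.Basic

/-!
# P219 rigidity: the inverse exponential map is continuous

`lg x` is the inverse of the bijection `Ex x` (`exp_bij`).  Continuity: if `(x_j, y_j) → (x, y)`
then all `x_j, y_j` lie in a compact set, so `w_j = lg x_j y_j` is bounded (`exp_proper`); every
subsequence of `w_j` has a further subsequence converging to some `w` with `Ex x w = y`
(`Ex_cont`), so `w = lg x y` (`tendsto_of_subseq_tendsto`).
-/

namespace Vale.Agent.Lib.P219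

open MeasureTheory Set Filter Topology
open scoped ENNReal

namespace HData

variable {n : ℕ} (H : HData n)

theorem exists_lg : ∃ lg : Ev n → Ev n → Ev n,
    Continuous (fun p : Ev n × Ev n => lg p.1 p.2) ∧ (∀ x y, H.Ex x (lg x y) = y) ∧
      ∀ x w, lg x (H.Ex x w) = w := by
  have hbij : ∀ x, Function.Bijective (H.Ex x) := H.exp_bij
  let lg : Ev n → Ev n → Ev n := fun x y => (Equiv.ofBijective (H.Ex x) (hbij x)).symm y
  have h1 : ∀ x y, H.Ex x (lg x y) = y := fun x y =>
    (Equiv.ofBijective (H.Ex x) (hbij x)).apply_symm_apply y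
  have h2 : ∀ x w, lg x (H.Ex x w) = w := fun x w =>
    (Equiv.ofBijective (H.Ex x) (hbij x)).symm_apply_apply w
  refine ⟨lg, ?_, h1, h2⟩
  rw [continuous_iff_seqContinuous]
  intro u p hu
  have hx : Tendsto (fun j => (u j).1) atTop (𝓝 p.1) :=
    (continuous_fst.tendsto p).comp hu
  have hy : Tendsto (fun j => (u j).2) atTop (𝓝 p.2) :=
    (continuous_snd.tendsto p).comp hu
  have hK : IsCompact (insert p.1 (range fun j => (u j).1) ∪ insert p.2 (range fun j => (u j).2)) :=
    hx.isCompact_insert_range.union hy.isCompact_insert_range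
  obtain ⟨R, hR⟩ := H.exp_proper _ hK
  have hb : ∀ j, lg (u j).1 (u j).2 ∈ Metric.closedBall (0 : Ev n) R := by
    intro j
    rw [mem_closedBall_zero_iff]
    refine hR (u j).1 (Or.inl (Or.inr ⟨j, rfl⟩)) _ ?_
    have h3 : (H.fl 1 ((u j).1, lg (u j).1 (u j).2)).1 = (u j).2 := h1 (u j).1 (u j).2
    rw [h3]
    exact Or.inr (Or.inr ⟨j, rfl⟩)
  refine tendsto_of_subseq_tendsto ?_
  intro ns hns
  obtain ⟨w, -, φ, hφ, hw⟩ := (isCompact_closedBall (0 : Ev n) R).tendsto_subseq
    (x := fun j => lg (u (ns j)).1 (u (ns j)).2) (fun j => hb (ns j))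
  refine ⟨φ, ?_⟩
  have h4 : Tendsto (fun k => ns (φ k)) atTop atTop := hns.comp hφ.tendsto_atTop
  have h5 : Tendsto (fun k => ((u (ns (φ k))).1, lg (u (ns (φ k))).1 (u (ns (φ k))).2)) atTop
      (𝓝 (p.1, w)) := (hx.comp h4).prodMk_nhds hw
  have h6 : Tendsto (fun k => H.Ex (u (ns (φ k))).1 (lg (u (ns (φ k))).1 (u (ns (φ k))).2)) atTop
      (𝓝 (H.Ex p.1 w)) := (H.Ex_cont.tendsto (p.1, w)).comp h5
  have h7 : (fun k => H.Ex (u (ns (φ k))).1 (lg (u (ns (φ k))).1 (u (ns (φ k))).2)) =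
      fun k => (u (ns (φ k))).2 := by
    funext k
    exact h1 _ _
  rw [h7] at h6
  have h8 : H.Ex p.1 w = p.2 := tendsto_nhds_unique h6 (hy.comp h4)
  have h9 : w = lg p.1 p.2 := by rw [← h8, h2]
  rw [h9] at hw
  exact hw

end HData

end Vale.Agent.Lib.P219
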