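import Vale.Agent.Lib.P219.Ri.Bdry
import Vale.Agent.Lib.P219.Final

/-!
# P219 rigidity: extremal domains are flat balls
-/

namespace Vale.Agent.Lib.P219

open MeasureTheory Set Filter Topology
open scoped ENNReal ContDiff

variable {n : ℕ}

/-- equality case for the perimeter: `φ w = Ex p (w + R • ν)` -/
theorem rigidity_per (hn : 2 ≤ n) {c : RawCert n} (hc : c.Strict)
    (g : Ev n → Ev n →L[ℝ] Ev n →L[ℝ] ℝ) (Γ : Ev n → Ev n →L[ℝ] Ev n →L[ℝ] Ev n)
    (h : IsCH g Γ) {Ω : Set (Ev n)} (hΩ : Bornology.IsBounded Ω) (ho : IsOpen Ω)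
    (hreg : interior (closure Ω) ⊆ Ω) (hne : Ω.Nonempty)
    (heq : per g Ω = ENNReal.ofReal (n * om n ^ ((1 : ℝ) / n))
      * (gvol g Ω) ^ (((n : ℝ) - 1) / n)) :
    ∃ (R : ℝ) (φ : Ev n → Ev n), 0 < R ∧ ContDiff ℝ ∞ φ ∧ Function.Injective φ ∧
      φ '' Metric.ball 0 R = Ω ∧
      ∀ w ∈ Metric.ball 0 R, ∀ ξ η, g (φ w) (fderiv ℝ φ w ξ) (fderiv ℝ φ w η) = inner ℝ ξ η := by
  obtain ⟨H, hH, hsm⟩ := P219G.exists_HData_smooth_of_isCH g Γ h
  obtain ⟨p, ν, R, hR, him, hP⟩ := rigidity_HData hn hc h.metric hH hΩ ho hreg hne heq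
  have hinj : Function.Injective (H.Ex p) := (H.exp_bij p).1
  have hd : ∀ w, HasFDerivAt (H.Ex p) ((H.L (H.Ex p w)).comp (H.P p w)) w :=
    fun w => H.exp_deriv p w
  refine ⟨R, fun w => H.Ex p (w + R • ν), hR, ?_, ?_, ?_, ?_⟩
  · exact (hsm p).comp (contDiff_id.add contDiff_const)
  · intro a b hab
    exact add_right_cancel (hinj hab)
  · rw [← him]
    ext y
    simp only [mem_image, Metric.mem_ball, dist_zero_right]
    constructor
    · rintro ⟨w, hw, rfl⟩
      refine ⟨w + R • ν, ?_, rfl⟩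
      rw [dist_eq_norm, add_sub_cancel_right]
      exact hw
    · rintro ⟨w, hw, rfl⟩
      refine ⟨w - R • ν, ?_, ?_⟩
      · rw [dist_eq_norm] at hw
        exact hw
      · rw [sub_add_cancel]
  · intro w hw ξ η
    have hw' : w + R • ν ∈ Metric.ball (R • ν) R := by
      rw [Metric.mem_ball, dist_eq_norm, add_sub_cancel_right]
      rwa [Metric.mem_ball, dist_zero_right] at hw
    have h1 : HasFDerivAt (fun w => H.Ex p (w + R • ν))
        ((H.L (H.Ex p (w + R • ν))).comp (H.P p (w + R • ν))) w := by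
      have h0 := (hd (w + R • ν)).comp w ((hasFDerivAt_id w).add_const (R • ν))
      rwa [ContinuousLinearMap.comp_id] at h0
    rw [h1.fderiv, hH]
    simp only [ContinuousLinearMap.comp_apply, H.Li_L]
    have h2 := hP _ hw'
    have h3 := h2 (ξ + η)
    have h4 := h2 ξ
    have h5 := h2 η
    rw [map_add] at h3
    have e1 := norm_add_sq_real (H.P p (w + R • ν) ξ) (H.P p (w + R • ν) η)
    have e2 := norm_add_sq_real ξ η
    rw [h3, h4, h5] at e1
    linarith

/-- the interior of the closure of `{ρ < 0}` is `{ρ < 0}` (`IsLocalMax.fderiv_eq_zero`) -/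
theorem regular_of_defining {ρ : Ev n → ℝ} (hρ : P219G.IsDefiningFunction ρ) :
    interior (closure {x | ρ x < 0}) ⊆ {x | ρ x < 0} := by
  have hcl : closure {x | ρ x < 0} ⊆ {x | ρ x ≤ 0} :=
    closure_minimal (fun x (hx : ρ x < 0) => (le_of_lt hx : ρ x ≤ 0))
      (isClosed_le hρ.smooth.continuous continuous_const)
  intro x hx
  have hx0 : ρ x ≤ 0 := hcl (interior_subset hx)
  rcases hx0.lt_or_eq with h | h
  · exact h
  · exfalso
    apply hρ.regular x h
    apply IsLocalMax.fderiv_eq_zero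
    have hmem : closure {x | ρ x < 0} ∈ 𝓝 x := mem_interior_iff_mem_nhds.1 hx
    filter_upwards [hmem] with y hy
    rw [h]
    exact hcl hy

/-- equality case for smooth domains: `profile ≤ per ≤ area` -/
theorem rigidity_area (hn : 2 ≤ n) {c : RawCert n} (hc : c.Strict)
    (g : Ev n → Ev n →L[ℝ] Ev n →L[ℝ] ℝ) (Γ : Ev n → Ev n →L[ℝ] Ev n →L[ℝ] Ev n)
    (h : IsCH g Γ) (ρ : Ev n → ℝ) (hρ : P219G.IsDefiningFunction ρ)
    (hne : {x | ρ x < 0}.Nonempty)
    (heq : P219G.area g ρ = ENNReal.ofReal (n * om n ^ ((1 : ℝ) / n))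
      * (gvol g {x | ρ x < 0}) ^ (((n : ℝ) - 1) / n)) :
    ∃ (R : ℝ) (φ : Ev n → Ev n), 0 < R ∧ ContDiff ℝ ∞ φ ∧ Function.Injective φ ∧
      φ '' Metric.ball 0 R = {x | ρ x < 0} ∧
      ∀ w ∈ Metric.ball 0 R, ∀ ξ η, g (φ w) (fderiv ℝ φ w ξ) (fderiv ℝ φ w η) = inner ℝ ξ η := by
  have ho : IsOpen {x | ρ x < 0} := isOpen_lt hρ.smooth.continuous continuous_const
  refine rigidity_per hn hc g Γ h hρ.bounded ho (regular_of_defining hρ) hne ?_
  apply le_antisymm
  · rw [← heq]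
    exact P219G.per_le_area g ⟨h.metric.smooth, h.metric.symm, h.metric.pos⟩ ρ hρ
  · exact isoperimetric_per hn (hasKer_of_raw hn c) g Γ h {x | ρ x < 0} hρ.bounded
      ho.measurableSet

end Vale.Agent.Lib.P219
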