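import Mathlib.Algebra.Ring.IsFormallyReal
import Mathlib.Order.CompletePartialOrder
import Vale.Agent.Lib.P219.A.Basic
import Vale.Agent.Lib.P219.Ri.Defs

/-!
# P219 rigidity: continuity of the raw defect

`c.ηr`, `c.ηc` are continuous on `{r > 0}`: partial derivatives of a `C¹` function
(see `ηr_cont`, `ηc_cont` in A/KerB, here on the open set `Ioi 0 ×ˢ univ`).
-/

namespace Vale.Agent.Lib.P219

open MeasureTheory Set Filter Topology
open scoped ENNReal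

namespace RawCert

variable {n : ℕ} (c : RawCert n)

private theorem ri_isOpen : IsOpen ((Ioi 0 ×ˢ univ : Set (ℝ × ℝ))) := isOpen_Ioi.prod isOpen_univ

private theorem ri_ηr (p : ℝ × ℝ) (hp : p ∈ (Ioi 0 ×ˢ univ : Set (ℝ × ℝ))) :
    c.ηr p.1 p.2 = fderiv ℝ (fun p : ℝ × ℝ => c.η p.1 p.2) p (1, 0) := by
  have h1 : DifferentiableAt ℝ (fun p : ℝ × ℝ => c.η p.1 p.2) p :=
    (c.smooth.contDiffAt (ri_isOpen.mem_nhds hp)).differentiableAt (by norm_num)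
  have h2 : HasDerivAt (fun s : ℝ => ((s, p.2) : ℝ × ℝ)) (1, 0) p.1 :=
    (hasDerivAt_id p.1).prodMk (hasDerivAt_const p.1 p.2)
  have h3 : HasFDerivAt (fun p : ℝ × ℝ => c.η p.1 p.2)
      (fderiv ℝ (fun p : ℝ × ℝ => c.η p.1 p.2) p) ((fun s : ℝ => ((s, p.2) : ℝ × ℝ)) p.1) :=
    h1.hasFDerivAt
  have h4 := h3.comp_hasDerivAt p.1 h2
  have h5 : HasDerivAt (fun s : ℝ => c.η s p.2)
      (fderiv ℝ (fun p : ℝ × ℝ => c.η p.1 p.2) p (1, 0)) p.1 := h4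
  exact (c.deriv_r p.1 p.2 hp.1).unique h5

private theorem ri_ηc (p : ℝ × ℝ) (hp : p ∈ (Ioi 0 ×ˢ univ : Set (ℝ × ℝ))) :
    c.ηc p.1 p.2 = fderiv ℝ (fun p : ℝ × ℝ => c.η p.1 p.2) p (0, 1) := by
  have h1 : DifferentiableAt ℝ (fun p : ℝ × ℝ => c.η p.1 p.2) p :=
    (c.smooth.contDiffAt (ri_isOpen.mem_nhds hp)).differentiableAt (by norm_num)
  have h2 : HasDerivAt (fun s : ℝ => ((p.1, s) : ℝ × ℝ)) (0, 1) p.2 :=
    (hasDerivAt_const p.2 p.1).prodMk (hasDerivAt_id p.2)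
  have h3 : HasFDerivAt (fun p : ℝ × ℝ => c.η p.1 p.2)
      (fderiv ℝ (fun p : ℝ × ℝ => c.η p.1 p.2) p) ((fun s : ℝ => ((p.1, s) : ℝ × ℝ)) p.2) :=
    h1.hasFDerivAt
  have h4 := h3.comp_hasDerivAt p.2 h2
  have h5 : HasDerivAt (fun s : ℝ => c.η p.1 s)
      (fderiv ℝ (fun p : ℝ × ℝ => c.η p.1 p.2) p (0, 1)) p.2 := h4
  exact (c.deriv_c p.1 p.2 hp.1).unique h5

private theorem ri_fderiv_cont (v : ℝ × ℝ) : ContinuousOn
    (fun p => fderiv ℝ (fun p : ℝ × ℝ => c.η p.1 p.2) p v) (Ioi 0 ×ˢ univ) :=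
  (c.smooth.continuousOn_fderiv_of_isOpen ri_isOpen (by norm_num)).clm_apply continuousOn_const

private theorem η_contOn : ContinuousOn (fun p : ℝ × ℝ => c.η p.1 p.2) (Ioi 0 ×ˢ univ) :=
  c.smooth.continuousOn

private theorem ηr_contOn : ContinuousOn (fun p : ℝ × ℝ => c.ηr p.1 p.2) (Ioi 0 ×ˢ univ) :=
  (c.ri_fderiv_cont (1, 0)).congr fun p hp => c.ri_ηr p hp

private theorem ηc_contOn : ContinuousOn (fun p : ℝ × ℝ => c.ηc p.1 p.2) (Ioi 0 ×ˢ univ) :=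
  (c.ri_fderiv_cont (0, 1)).congr fun p hp => c.ri_ηc p hp

end RawCert

private theorem ri_aux {X : Type*} [TopologicalSpace X] {s : Set X} (n : ℝ)
    {r x y e er ec : X → ℝ} (hr : ContinuousOn r s) (hr0 : ∀ p ∈ s, r p ≠ 0)
    (hx : ContinuousOn x s) (hy : ContinuousOn y s) (he : ContinuousOn e s)
    (her : ContinuousOn er s) (hec : ContinuousOn ec s) :
    ContinuousOn (fun p => er p * (1 - x p ^ 2) + e p / r p * (n - 2 + x p ^ 2)
        - |x p| * |ec p| * Real.sqrt ((1 - x p ^ 2) * (1 - y p ^ 2)) / r p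
        - (n - 1) * x p * e p) s := by
  have h1 : ContinuousOn (fun p => 1 - x p ^ 2) s := continuousOn_const.sub (hx.pow 2)
  have h2 : ContinuousOn (fun p => 1 - y p ^ 2) s := continuousOn_const.sub (hy.pow 2)
  have h3 : ContinuousOn (fun p => n - 2 + x p ^ 2) s := continuousOn_const.add (hx.pow 2)
  exact (((her.mul h1).add ((he.div hr hr0).mul h3)).sub
    (((hx.abs.mul hec.abs).mul ((h1.mul h2).sqrt)).div hr hr0)).sub
    ((continuousOn_const.mul hx).mul he)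

theorem RawCert.B_cont {n : ℕ} (c : RawCert n) :
    ContinuousOn (fun p : ℝ × ℝ × ℝ => c.B p.1 p.2.1 p.2.2) {p | 0 < p.1} := by
  have hr : ContinuousOn (fun p : ℝ × ℝ × ℝ => p.1) {p | 0 < p.1} := continuous_fst.continuousOn
  have hx : ContinuousOn (fun p : ℝ × ℝ × ℝ => p.2.1) {p | 0 < p.1} :=
    (continuous_fst.comp continuous_snd).continuousOn
  have hy : ContinuousOn (fun p : ℝ × ℝ × ℝ => p.2.2) {p | 0 < p.1} :=
    (continuous_snd.comp continuous_snd).continuousOn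
  have hr0 : ∀ p ∈ {p : ℝ × ℝ × ℝ | 0 < p.1}, p.1 ≠ 0 := fun p hp => (ne_of_gt hp)
  have hm1 : MapsTo (fun p : ℝ × ℝ × ℝ => (p.1, p.2.1)) {p | 0 < p.1} (Ioi 0 ×ˢ univ) :=
    fun p hp => ⟨hp, mem_univ _⟩
  have hm2 : MapsTo (fun p : ℝ × ℝ × ℝ => (p.1, p.2.2)) {p | 0 < p.1} (Ioi 0 ×ˢ univ) :=
    fun p hp => ⟨hp, mem_univ _⟩
  have e1 : ContinuousOn (fun p : ℝ × ℝ × ℝ => c.η p.1 p.2.1) {p | 0 < p.1} :=
    c.η_contOn.comp (hr.prodMk hx) hm1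
  have e2 : ContinuousOn (fun p : ℝ × ℝ × ℝ => c.η p.1 p.2.2) {p | 0 < p.1} :=
    c.η_contOn.comp (hr.prodMk hy) hm2
  have r1 : ContinuousOn (fun p : ℝ × ℝ × ℝ => c.ηr p.1 p.2.1) {p | 0 < p.1} :=
    c.ηr_contOn.comp (hr.prodMk hx) hm1
  have r2 : ContinuousOn (fun p : ℝ × ℝ × ℝ => c.ηr p.1 p.2.2) {p | 0 < p.1} :=
    c.ηr_contOn.comp (hr.prodMk hy) hm2
  have c1 : ContinuousOn (fun p : ℝ × ℝ × ℝ => c.ηc p.1 p.2.1) {p | 0 < p.1} :=
    c.ηc_contOn.comp (hr.prodMk hx) hm1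
  have c2 : ContinuousOn (fun p : ℝ × ℝ × ℝ => c.ηc p.1 p.2.2) {p | 0 < p.1} :=
    c.ηc_contOn.comp (hr.prodMk hy) hm2
  unfold RawCert.B
  exact continuousOn_const.add (((ri_aux (n : ℝ) hr hr0 hx hy e2 r2 c2).add
    (ri_aux (n : ℝ) hr hr0 hy hx e1 r1 c1)).div_const 2)

theorem mker_cont (n : ℕ) (d : ℝ) {f : ℝ → ℝ} (hf : Continuous f) :
    ContinuousOn (fun p : ℝ × ℝ × ℝ => mker n d f p.1 p.2.1 p.2.2) {p | 0 < p.1} := by
  unfold mker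
  have h1 : Continuous (fun p : ℝ × ℝ × ℝ =>
      max p.2.1 0 * max p.2.2 0 * max (d * p.1 - f |p.2.1| - f |p.2.2|) 0) := by
    have ha : Continuous (fun p : ℝ × ℝ × ℝ => f |p.2.1|) :=
      hf.comp (continuous_fst.comp continuous_snd).abs
    have hb : Continuous (fun p : ℝ × ℝ × ℝ => f |p.2.2|) :=
      hf.comp (continuous_snd.comp continuous_snd).abs
    exact (((continuous_fst.comp continuous_snd).max continuous_const).mul
      ((continuous_snd.comp continuous_snd).max continuous_const)).mul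
      ((((continuous_const.mul continuous_fst).sub ha).sub hb).max continuous_const)
  exact h1.continuousOn.div (continuous_fst.pow (n - 1)).continuousOn
    fun p hp => pow_ne_zero _ (ne_of_gt hp)

namespace HData

variable {n : ℕ} (H : HData n) (c : RawCert n)

/-- `z = (x, w, ν, ν', R)` -/
theorem Eraw_cont {x w ν ν' : Ev n} {R : ℝ} (hw : w ≠ 0) (hR : 0 < R) :
    ContinuousAt (fun z : Ev n × Ev n × Ev n × Ev n × ℝ =>
      H.Eraw c z.2.2.2.2 z.1 z.2.1 z.2.2.1 z.2.2.2.1) (x, w, ν, ν', R) := by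
  have hopen : IsOpen {p : ℝ × ℝ × ℝ | 0 < p.1} := isOpen_lt continuous_const continuous_fst
  have hwn : ‖w‖ ≠ 0 := norm_ne_zero_iff.2 hw
  have hcw : Continuous (fun z : Ev n × Ev n × Ev n × Ev n × ℝ => ‖z.2.1‖) :=
    (continuous_fst.comp continuous_snd).norm
  have hcR : Continuous (fun z : Ev n × Ev n × Ev n × Ev n × ℝ => z.2.2.2.2) := by fun_prop
  have hcν : Continuous (fun z : Ev n × Ev n × Ev n × Ev n × ℝ => z.2.2.1) := by fun_prop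
  have hcν' : Continuous (fun z : Ev n × Ev n × Ev n × Ev n × ℝ => z.2.2.2.1) := by fun_prop
  have hcw' : Continuous (fun z : Ev n × Ev n × Ev n × Ev n × ℝ => z.2.1) := by fun_prop
  have hxw : Continuous (fun z : Ev n × Ev n × Ev n × Ev n × ℝ => (z.1, z.2.1)) := by fun_prop
  have hve : Continuous (fun z : Ev n × Ev n × Ev n × Ev n × ℝ => H.ve z.1 z.2.1) :=
    H.ve_cont.comp hxw
  have hth : Continuous (fun z : Ev n × Ev n × Ev n × Ev n × ℝ => H.th z.1 z.2.1) :=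
    H.th_cont.comp hxw
  have a1 : ContinuousAt (fun z : Ev n × Ev n × Ev n × Ev n × ℝ => ‖z.2.1‖ / z.2.2.2.2)
      (x, w, ν, ν', R) := hcw.continuousAt.div hcR.continuousAt hR.ne'
  have a2 : ContinuousAt (fun z : Ev n × Ev n × Ev n × Ev n × ℝ =>
      -(inner ℝ z.2.2.2.1 (H.ve z.1 z.2.1)) / ‖z.2.1‖) (x, w, ν, ν', R) :=
    ((hcν'.inner hve).neg.continuousAt).div hcw.continuousAt hwn
  have a3 : ContinuousAt (fun z : Ev n × Ev n × Ev n × Ev n × ℝ =>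
      inner ℝ z.2.2.1 z.2.1 / ‖z.2.1‖) (x, w, ν, ν', R) :=
    ((hcν.inner hcw').continuousAt).div hcw.continuousAt hwn
  have hmem : (‖w‖ / R, -(inner ℝ ν' (H.ve x w)) / ‖w‖, inner ℝ ν w / ‖w‖) ∈
      {p : ℝ × ℝ × ℝ | 0 < p.1} := div_pos (norm_pos_iff.2 hw) hR
  have hT : ContinuousAt (fun z : Ev n × Ev n × Ev n × Ev n × ℝ =>
      (‖z.2.1‖ / z.2.2.2.2, -(inner ℝ z.2.2.2.1 (H.ve z.1 z.2.1)) / ‖z.2.1‖,
        inner ℝ z.2.2.1 z.2.1 / ‖z.2.1‖)) (x, w, ν, ν', R) := a1.prodMk (a2.prodMk a3)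
  have hB : ContinuousAt (fun p : ℝ × ℝ × ℝ => c.B p.1 p.2.1 p.2.2)
      (‖w‖ / R, -(inner ℝ ν' (H.ve x w)) / ‖w‖, inner ℝ ν w / ‖w‖) :=
    c.B_cont.continuousAt (hopen.mem_nhds hmem)
  have hM : ContinuousAt (fun p : ℝ × ℝ × ℝ => mker n c.d c.f p.1 p.2.1 p.2.2)
      (‖w‖ / R, -(inner ℝ ν' (H.ve x w)) / ‖w‖, inner ℝ ν w / ‖w‖) :=
    (mker_cont n c.d c.f_cont).continuousAt (hopen.mem_nhds hmem)
  have hth0 : H.th x w ≠ 0 := (lt_of_lt_of_le one_pos (H.one_le_th x w)).ne'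
  have b1 := ContinuousAt.comp (f := fun z : Ev n × Ev n × Ev n × Ev n × ℝ =>
      (‖z.2.1‖ / z.2.2.2.2, -(inner ℝ z.2.2.2.1 (H.ve z.1 z.2.1)) / ‖z.2.1‖,
        inner ℝ z.2.2.1 z.2.1 / ‖z.2.1‖)) (x := (x, w, ν, ν', R)) hB hT
  have b2 := ContinuousAt.comp (f := fun z : Ev n × Ev n × Ev n × Ev n × ℝ =>
      (‖z.2.1‖ / z.2.2.2.2, -(inner ℝ z.2.2.2.1 (H.ve z.1 z.2.1)) / ‖z.2.1‖,
        inner ℝ z.2.2.1 z.2.1 / ‖z.2.1‖)) (x := (x, w, ν, ν', R)) hM hT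
  have b3 : ContinuousAt (fun z : Ev n × Ev n × Ev n × Ev n × ℝ => H.th z.1 z.2.1)
      (x, w, ν, ν', R) := hth.continuousAt
  exact b1.sub (b2.div b3 hth0)

end HData

end Vale.Agent.Lib.P219
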