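import Vale.Agent.Lib.P219.A.Change
import Vale.Agent.Lib.P219.A.FVBasic
import Vale.Agent.Lib.P219.Ri.Defs

/-!
# P219 rigidity: pigeonhole and a lower bound for the inner defect
-/

namespace Vale.Agent.Lib.P219

open MeasureTheory Set Filter Topology
open scoped ENNReal

/-- If `G > 2 D / m` wherever `φ ≠ 0` on `S`, then `∫_S φ G ≥ (2 D / m) m = 2 D > D`. -/
theorem pigeon {α : Type*} [MeasurableSpace α] {μ : Measure α} {S : Set α} (hS : MeasurableSet S)
    {φ G : α → ℝ≥0∞} (hφ : Measurable φ) {D m : ℝ≥0∞} (hD0 : D ≠ 0) (hD : D ≠ ⊤) (hm0 : m ≠ 0)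
    (hm : m ≠ ⊤) (h1 : ∫⁻ x in S, φ x * G x ∂μ ≤ D) (h2 : m ≤ ∫⁻ x in S, φ x ∂μ) :
    ∃ x ∈ S, φ x ≠ 0 ∧ G x ≤ 2 * D / m := by
  by_contra hcon
  push Not at hcon
  have h3 : ∫⁻ x in S, φ x * (2 * D / m) ∂μ ≤ ∫⁻ x in S, φ x * G x ∂μ := by
    apply setLIntegral_mono' hS
    intro x hx
    by_cases h0 : φ x = 0
    · simp [h0]
    · exact mul_le_mul_right (hcon x hx h0).le _
  rw [lintegral_mul_const _ hφ] at h3
  have h4 : m * (2 * D / m) = 2 * D := ENNReal.mul_div_cancel hm0 hm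
  have h5 : 2 * D ≤ D := by
    calc 2 * D = m * (2 * D / m) := h4.symm
      _ ≤ (∫⁻ x in S, φ x ∂μ) * (2 * D / m) := mul_le_mul_left h2 _
      _ ≤ _ := h3
      _ ≤ D := h1
  have h6 : D < 2 * D := by
    rw [two_mul]
    exact ENNReal.lt_add_right hD hD0
  exact absurd h6 (not_lt.2 h5)

namespace HData

variable {n : ℕ} (H : HData n) (k : Ker n)

/-- Change of variables `y = Ex x w` (`lintegral_exp`): if `η ≤ B - mker / th` on `{w : Ex x w ∈ N}`
then `η th ≤ B th - mker` there (`th ≥ 1 > 0`). -/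
theorem G_lower {u : Ev n → ℝ} (hu : ContDiff ℝ 1 u) {ρ₀ : ℝ} (x : Ev n)
    {N : Set (Ev n)} (hN : MeasurableSet N) {η : ℝ} (hη : 0 ≤ η)
    (h : ∀ w, H.Ex x w ∈ N → H.gr u (H.Ex x w) ≠ 0 →
      η ≤ k.B (‖w‖ / ρ₀) (H.cy u x w) (H.cx u x w)
        - mker n k.d k.f (‖w‖ / ρ₀) (H.cy u x w) (H.cx u x w) / H.th x w) :
    ENNReal.ofReal η * ∫⁻ y in N, ENNReal.ofReal ‖H.gr u y‖ ∂H.vol ≤ H.Gk k u ρ₀ x := by
  have hm : Measurable (fun y => ENNReal.ofReal ‖H.gr u y‖) :=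
    (H.gr_cont hu).norm.measurable.ennreal_ofReal
  rw [← lintegral_indicator hN, H.lintegral_exp x, ← lintegral_const_mul']
  · unfold Gk
    apply lintegral_mono
    intro w
    simp only
    by_cases hw : H.Ex x w ∈ N
    · rw [indicator_of_mem hw]
      by_cases hg : H.gr u (H.Ex x w) = 0
      · simp [hg]
      · have hth : 0 < H.th x w := by
          exact lt_of_lt_of_le one_pos (H.one_le_th x w)
        have h1 := h w hw hg
        rw [← ENNReal.ofReal_mul (norm_nonneg _), ← ENNReal.ofReal_mul hη]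
        apply ENNReal.ofReal_le_ofReal
        have h2 : η * H.th x w ≤ k.B (‖w‖ / ρ₀) (H.cy u x w) (H.cx u x w) * H.th x w
            - mker n k.d k.f (‖w‖ / ρ₀) (H.cy u x w) (H.cx u x w) := by
          have h3 := mul_le_mul_of_nonneg_right h1 hth.le
          rwa [sub_mul, div_mul_cancel₀ _ hth.ne'] at h3
        calc η * (‖H.gr u (H.Ex x w)‖ * H.th x w) = ‖H.gr u (H.Ex x w)‖ * (η * H.th x w) := by ring
          _ ≤ _ := mul_le_mul_of_nonneg_left h2 (norm_nonneg _)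
    · rw [indicator_of_notMem hw]
      simp
  · exact ENNReal.ofReal_ne_top

end HData

end Vale.Agent.Lib.P219
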