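import Vale.Agent.Lib.P219.Ce.Cutoff
import Vale.Agent.Lib.P219.Ri.Defs

/-! # P219 rigidity: cutoffs of a raw certificate -/

namespace Vale.Agent.Lib.P219

theorem RawCert.exists_cut {n : ℕ} (c : RawCert n) {δ : ℝ} (hδ : 0 < δ) :
    ∃ k : Ker n, c.CutOf δ k := by
  obtain ⟨k, h1, h2, h3, h4, h5⟩ := exists_cut_aux c hδ
  exact ⟨k, h1, h2, h3, h4, fun r x y hr => h5 r x y hr⟩

end Vale.Agent.Lib.P219
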