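import Vale.Agent.Lib.P219.A.Basic
import Vale.Agent.Lib.P219.Ri.Log
import Vale.Agent.Lib.P219.Ri.Topo

/-!
# P219 rigidity: the domain is the exponential image of a ball and is flat
-/

namespace Vale.Agent.Lib.P219

open MeasureTheory Set Filter Topology

/-- `P` is invertible, `A = P⁻¹` is a contraction with `|det A| = 1`, so `‖ξ‖ ≤ ‖A ξ‖`
(`LA.abs_det_mul_norm_le`). -/
theorem LA.norm_eq_of_abs_det_le {n : ℕ} (P : Ev n →L[ℝ] Ev n) (h : ∀ ξ, ‖ξ‖ ≤ ‖P ξ‖)
    (hd : |P.det| ≤ 1) (ξ : Ev n) : ‖P ξ‖ = ‖ξ‖ := by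
  have hinj' : Function.Injective (P : Ev n →ₗ[ℝ] Ev n) := by
    rw [← LinearMap.ker_eq_bot, LinearMap.ker_eq_bot']
    intro m hm
    have h1 := h m
    have h2 : P m = 0 := hm
    rw [h2, norm_zero] at h1
    exact norm_le_zero_iff.mp h1
  have hsurj : Function.Surjective (P : Ev n →ₗ[ℝ] Ev n) :=
    LinearMap.injective_iff_surjective.mp hinj'
  set E : Ev n ≃ₗ[ℝ] Ev n := LinearEquiv.ofBijective (P : Ev n →ₗ[ℝ] Ev n) ⟨hinj', hsurj⟩ with hE
  have hE1 : ∀ ξ, E ξ = P ξ := fun ξ => rfl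
  set A : Ev n →L[ℝ] Ev n := LinearMap.toContinuousLinearMap (E.symm : Ev n →ₗ[ℝ] Ev n) with hA
  have hAP : ∀ ξ, A (P ξ) = ξ := by
    intro ξ
    rw [hA, ← hE1]
    simp
  have hAc : ∀ η, ‖A η‖ ≤ ‖η‖ := by
    intro η
    obtain ⟨ζ, hζ⟩ := hsurj η
    have hζ' : P ζ = η := hζ
    rw [← hζ', hAP]
    exact h ζ
  have hdet : A.det * P.det = 1 := by
    have e : (A : Ev n →ₗ[ℝ] Ev n) ∘ₗ (P : Ev n →ₗ[ℝ] Ev n) = LinearMap.id := by
      ext1 ξ
      exact hAP ξ
    have h2 := congrArg LinearMap.det e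
    rw [LinearMap.det_comp, LinearMap.det_id] at h2
    exact h2
  have h1 : |A.det| * |P.det| = 1 := by rw [← abs_mul, hdet, abs_one]
  have h2 : 1 ≤ |A.det| := by
    have h3 : |A.det| * |P.det| ≤ |A.det| * 1 :=
      mul_le_mul_of_nonneg_left hd (abs_nonneg _)
    linarith
  have h4 := LA.abs_det_mul_norm_le A hAc (P ξ)
  rw [hAP] at h4
  refine le_antisymm ?_ (h ξ)
  calc ‖P ξ‖ = 1 * ‖P ξ‖ := (one_mul _).symm
    _ ≤ |A.det| * ‖P ξ‖ := mul_le_mul_of_nonneg_right h2 (norm_nonneg _)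
    _ ≤ ‖ξ‖ := h4

namespace HData

variable {n : ℕ} (H : HData n)

private theorem normsq_sub {n : ℕ} (w ν : Ev n) (R : ℝ) (hν : ‖ν‖ = 1) :
    ‖w - R • ν‖ ^ 2 = ‖w‖ ^ 2 - 2 * R * inner ℝ ν w + R ^ 2 := by
  rw [norm_sub_sq_real, inner_smul_right, norm_smul, hν, mul_one, Real.norm_eq_abs, sq_abs,
    real_inner_comm w ν]
  ring

/-- Let `D = (Ex p)⁻¹ Ω` (bounded by `exp_proper`; `Ex p` is a homeomorphism by `exists_lg`, so
`frontier D = (Ex p)⁻¹ (frontier Ω)`).  `‖w‖² = 2 R ⟨ν, w⟩` is `w ∈ sphere (R • ν) R`, so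
`D = ball (R • ν) R` by `eq_ball_of_frontier`, and `frontier D = sphere`.  For `w ∈ D`, `w ≠ 0`, the
point `s • w` with `s = 2 R ⟨ν, w⟩ / ‖w‖² ≥ 1` lies on the sphere, so `1 ≤ th p w ≤ th p (s • w) = 1`
(`th_mono`, `one_le_th`), and `LA.norm_eq_of_abs_det_le` applies to `P p w` (`norm_le_P`). -/
theorem ball_of_boundary (hn : 2 ≤ n) {Ω : Set (Ev n)} (hΩ : Bornology.IsBounded Ω)
    (ho : IsOpen Ω) (hne : Ω.Nonempty) {p : Ev n} {R : ℝ} (hR : 0 < R) {ν : Ev n} (hν : ‖ν‖ = 1)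
    (h : ∀ q ∈ frontier Ω, ∀ w, H.Ex p w = q → H.th p w = 1 ∧ ‖w‖ ^ 2 = 2 * R * inner ℝ ν w) :
    H.Ex p '' Metric.ball (R • ν) R = Ω ∧
      ∀ w ∈ Metric.ball (R • ν) R, ∀ ξ, ‖H.P p w ξ‖ = ‖ξ‖ := by
  obtain ⟨lg, hlg, hEl, hlE⟩ := H.exists_lg
  have hEc : Continuous (fun w => H.Ex p w) :=
    H.Ex_cont.comp (continuous_const.prodMk continuous_id)
  have hlc : Continuous (fun y => lg p y) := hlg.comp (continuous_const.prodMk continuous_id)
  let e : Ev n ≃ₜ Ev n :=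
    { toFun := fun w => H.Ex p w
      invFun := fun y => lg p y
      left_inv := fun w => hlE p w
      right_inv := fun y => hEl p y
      continuous_toFun := hEc
      continuous_invFun := hlc }
  have hee : ∀ w, e w = H.Ex p w := fun w => rfl
  set D : Set (Ev n) := e ⁻¹' Ω with hD
  have hDo : IsOpen D := ho.preimage e.continuous
  have hDf : frontier D = e ⁻¹' frontier Ω := (e.preimage_frontier Ω).symm
  have hDb : Bornology.IsBounded D := by
    have hK : IsCompact (closure Ω ∪ {p}) := hΩ.isCompact_closure.union isCompact_singleton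
    obtain ⟨r, hr⟩ := H.exp_proper _ hK
    refine (Metric.isBounded_closedBall (x := (0 : Ev n)) (r := r)).subset ?_
    intro w hw
    rw [mem_closedBall_zero_iff]
    exact hr p (Or.inr rfl) w (Or.inl (subset_closure hw))
  have hDne : D.Nonempty := by
    obtain ⟨y, hy⟩ := hne
    refine ⟨lg p y, ?_⟩
    show H.Ex p (lg p y) ∈ Ω
    rw [hEl]
    exact hy
  have hDs : frontier D ⊆ Metric.sphere (R • ν) R := by
    intro w hw
    rw [hDf] at hw
    have h1 := (h _ hw w rfl).2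
    have h2 := normsq_sub w ν R hν
    have h3 : ‖w - R • ν‖ ^ 2 = R ^ 2 := by rw [h2, h1]; ring
    rw [mem_sphere_iff_norm]
    exact (pow_left_inj₀ (norm_nonneg _) hR.le two_ne_zero).mp h3
  have hDball : D = Metric.ball (R • ν) R := eq_ball_of_frontier hn hDo hDb hDne hR hDs
  refine ⟨?_, ?_⟩
  · rw [← hDball, hD]
    exact image_preimage_eq Ω e.surjective
  · intro w hw ξ
    by_cases hw0 : w = 0
    · rw [hw0, H.P_zero]
    · have hwn : 0 < ‖w‖ ^ 2 := by
        have := norm_pos_iff.mpr hw0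
        positivity
      have h2 := normsq_sub w ν R hν
      have h3 : ‖w - R • ν‖ ^ 2 < R ^ 2 := by
        rw [mem_ball_iff_norm] at hw
        exact pow_lt_pow_left₀ hw (norm_nonneg _) two_ne_zero
      have h4 : ‖w‖ ^ 2 ≤ 2 * R * inner ℝ ν w := by linarith
      set s : ℝ := 2 * R * inner ℝ ν w / ‖w‖ ^ 2 with hs
      have hs1 : 1 ≤ s := by
        rw [hs, le_div_iff₀ hwn, one_mul]
        exact h4
      have hsw : s • w ∈ frontier D := by
        rw [hDball, frontier_ball _ hR.ne', mem_sphere_iff_norm]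
        have h5 := normsq_sub (s • w) ν R hν
        have h6 : ‖s • w - R • ν‖ ^ 2 = R ^ 2 := by
          rw [h5, norm_smul, mul_pow, Real.norm_eq_abs, sq_abs, inner_smul_right]
          have h7 : s * ‖w‖ ^ 2 = 2 * R * inner ℝ ν w := by
            rw [hs, div_mul_cancel₀ _ hwn.ne']
          have h8 : s ^ 2 * ‖w‖ ^ 2 = s * (2 * R * inner ℝ ν w) := by
            rw [← h7]; ring
          rw [h8]
          ring
        exact (pow_left_inj₀ (norm_nonneg _) hR.le two_ne_zero).mp h6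
      rw [hDf] at hsw
      have h9 : H.th p (s • w) = 1 := (h _ hsw (s • w) rfl).1
      have h10 := H.th_mono p w zero_le_one hs1
      rw [one_smul, h9] at h10
      exact LA.norm_eq_of_abs_det_le (H.P p w) (H.norm_le_P p w) h10 ξ

end HData

end Vale.Agent.Lib.P219
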