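import Vale.Agent.Lib.P219.Ri.Pigeon
import Vale.Agent.Lib.P219.Ri.Cont
import Vale.Agent.Lib.P219.Ri.Log

/-!
# P219 rigidity: the defect vanishes at pairs of boundary points

By contradiction: if `Eraw H c R p w_q ν ν' > 0` for all unit `ν'` (`w_q ≠ 0`, `Ex p w_q = q`), then by
compactness of the unit sphere (`IsCompact.exists_isMinOn`) and continuity (`Eraw_cont`, `exists_lg`,
`IsCompact.eventually_forall_of_forall_eventually`) there are `η, r > 0` with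
`η ≤ Eraw H c ρ' x w ν₀ ν'` and `‖w‖ / ρ' > s₀ > 0` for all unit `ν'`, all `(x, ν₀, ρ')` close to
`(p, ν, R)` and all `w` with `Ex x w ∈ ball q r`.  For `l` large `2 δ_l < s₀`, so
`k_l.B = c.B` and (as `k_l.f ≥ c.f`, `th > 0`) `mker_{k_l} ≤ mker_c` there; with
`ν₀ = gr/‖gr‖` at `x_l` and `ν' = gr/‖gr‖` at `Ex x_l w` one has `cx = ⟨ν₀, w⟩/‖w‖`,
`cy = -⟨ν', ve⟩/‖w‖`.  So `G_lower` gives `ofReal η * mass (ball q r) ≤ Gk → 0`, contradiction to
`HasMass`.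
-/

namespace Vale.Agent.Lib.P219

open MeasureTheory Set Filter Topology
open scoped ENNReal

namespace HData

variable {n : ℕ} (H : HData n)

theorem mker_cut_le {c : RawCert n} {δ : ℝ} (hδ : 0 < δ) {k : Ker n} (hk : c.CutOf δ k) {r x y : ℝ}
    (hr : 0 < r) : mker n k.d k.f r x y ≤ mker n c.d c.f r x y := by
  unfold mker
  rw [hk.d_eq, hk.f_eq, hk.f_eq]
  have h0 : 0 < c.d * δ := mul_pos c.d_pos hδ
  refine div_le_div_of_nonneg_right ?_ (pow_pos hr _).le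
  refine mul_le_mul_of_nonneg_left ?_ (mul_nonneg (le_max_right _ _) (le_max_right _ _))
  exact max_le_max (by linarith) le_rfl

theorem limit_pair (c : RawCert n) {u : ℕ → Ev n → ℝ} (hu : ∀ j, ContDiff ℝ 1 (u j))
    {ρ : ℕ → ℝ} {R : ℝ} (hR : 0 < R) (hρ : Tendsto ρ atTop (𝓝 R))
    {p ν : Ev n} {δ : ℕ → ℝ} {k : ℕ → Ker n} {j : ℕ → ℕ} {x : ℕ → Ev n}
    (hδ : ∀ l, 0 < δ l) (hδ0 : Tendsto δ atTop (𝓝 0)) (hk : ∀ l, c.CutOf (δ l) (k l))
    (hj : Tendsto j atTop atTop) (hx : Tendsto x atTop (𝓝 p))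
    (hgr : ∀ l, H.gr (u (j l)) (x l) ≠ 0) (hν : ‖ν‖ = 1)
    (hνl : Tendsto (fun l => ‖H.gr (u (j l)) (x l)‖⁻¹ • H.gr (u (j l)) (x l)) atTop (𝓝 ν))
    (hG : Tendsto (fun l => H.Gk (k l) (u (j l)) (ρ (j l)) (x l)) atTop (𝓝 0))
    {q w : Ev n} (hw : w ≠ 0) (hq : H.Ex p w = q) (hm : H.HasMass u q) :
    ∃ ν', ‖ν'‖ = 1 ∧ H.Eraw c R p w ν ν' ≤ 0 := by
  by_contra hcon
  push Not at hcon
  obtain ⟨lg, hlg, hlg1, hlg2⟩ := H.exists_lg
  have hwlg : lg p q = w := by rw [← hq, hlg2]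
  have hwn : 0 < ‖w‖ := norm_pos_iff.2 hw
  -- continuity of the composed defect
  have hcont : ∀ ν' : Ev n, ContinuousAt
      (fun z : ((Ev n × Ev n × ℝ) × Ev n) × Ev n =>
        H.Eraw c z.1.1.2.2 z.1.1.1 (lg z.1.1.1 z.1.2) z.1.1.2.1 z.2) (((p, ν, R), q), ν') := by
    intro ν'
    have h1 : ContinuousAt (fun z : Ev n × Ev n × Ev n × Ev n × ℝ =>
      H.Eraw c z.2.2.2.2 z.1 z.2.1 z.2.2.1 z.2.2.2.1) (p, lg p q, ν, ν', R) := by
      rw [hwlg]
      exact H.Eraw_cont c hw hR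
    have hl : Continuous (fun z : ((Ev n × Ev n × ℝ) × Ev n) × Ev n => lg z.1.1.1 z.1.2) :=
      hlg.comp (f := fun z : ((Ev n × Ev n × ℝ) × Ev n) × Ev n => (z.1.1.1, z.1.2))
        (by fun_prop)
    have h2 : ContinuousAt (fun z : ((Ev n × Ev n × ℝ) × Ev n) × Ev n =>
      ((z.1.1.1, lg z.1.1.1 z.1.2, z.1.1.2.1, z.2, z.1.1.2.2) : Ev n × Ev n × Ev n × Ev n × ℝ))
        (((p, ν, R), q), ν') := by
      refine Continuous.continuousAt ?_
      fun_prop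
    exact ContinuousAt.comp (x := (((p, ν, R), q), ν')) (f := fun z : ((Ev n × Ev n × ℝ) × Ev n) × Ev n =>
      ((z.1.1.1, lg z.1.1.1 z.1.2, z.1.1.2.1, z.2, z.1.1.2.2) : Ev n × Ev n × Ev n × Ev n × ℝ))
      h1 h2
  have hK : IsCompact (Metric.sphere (0 : Ev n) 1) := isCompact_sphere _ _
  have hKne : (Metric.sphere (0 : Ev n) 1).Nonempty := ⟨ν, by simpa using hν⟩
  have hmin : ∃ m > 0, ∀ ν' ∈ Metric.sphere (0 : Ev n) 1, m ≤ H.Eraw c R p w ν ν' := by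
    have hc : ContinuousOn (fun ν' => H.Eraw c R p w ν ν') (Metric.sphere (0 : Ev n) 1) := by
      intro ν' _
      refine ContinuousAt.continuousWithinAt ?_
      have h3 : ContinuousAt (fun ν' : Ev n => ((((p, ν, R), q), ν') :
          ((Ev n × Ev n × ℝ) × Ev n) × Ev n)) ν' := by
        refine Continuous.continuousAt ?_
        fun_prop
      have h4 := ContinuousAt.comp (x := ν') (f := fun ν' : Ev n => ((((p, ν, R), q), ν') :
          ((Ev n × Ev n × ℝ) × Ev n) × Ev n)) (hcont ν') h3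
      simpa [Function.comp_def, hwlg] using h4
    obtain ⟨ν₁, h1, h2⟩ := hK.exists_isMinOn hKne hc
    refine ⟨H.Eraw c R p w ν ν₁, hcon ν₁ (by simpa using h1), fun ν' hν' => h2 hν'⟩
  obtain ⟨m, hm0, hmle⟩ := hmin
  have hev : ∀ᶠ a : (Ev n × Ev n × ℝ) × Ev n in 𝓝 ((p, ν, R), q),
      ∀ ν' ∈ Metric.sphere (0 : Ev n) 1,
        m / 2 < H.Eraw c a.1.2.2 a.1.1 (lg a.1.1 a.2) a.1.2.1 ν' := by
    refine hK.eventually_forall_of_forall_eventually (fun ν' hν' => ?_)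
    have h5 : m / 2 < H.Eraw c R p (lg p q) ν ν' := by
      rw [hwlg]
      have := hmle ν' hν'
      linarith
    exact (hcont ν').eventually (lt_mem_nhds h5)
  have hev2 : ∀ᶠ a : (Ev n × Ev n × ℝ) × Ev n in 𝓝 ((p, ν, R), q),
      ‖w‖ / (2 * R) < ‖lg a.1.1 a.2‖ / a.1.2.2 := by
    have h6 : ContinuousAt (fun a : (Ev n × Ev n × ℝ) × Ev n => ‖lg a.1.1 a.2‖ / a.1.2.2)
        ((p, ν, R), q) := by
      refine ContinuousAt.div ?_ ?_ hR.ne'
      · refine Continuous.continuousAt ?_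
        exact (hlg.comp (f := fun a : (Ev n × Ev n × ℝ) × Ev n => (a.1.1, a.2))
          (by fun_prop)).norm
      · refine Continuous.continuousAt ?_
        fun_prop
    have h7 : ‖w‖ / (2 * R) < ‖lg p q‖ / R := by
      rw [hwlg]
      exact div_lt_div_of_pos_left hwn hR (by linarith)
    exact h6.eventually (lt_mem_nhds h7)
  have hev3 : ∀ᶠ a : (Ev n × Ev n × ℝ) × Ev n in 𝓝 ((p, ν, R), q), 0 < a.1.2.2 := by
    have h8 : ContinuousAt (fun a : (Ev n × Ev n × ℝ) × Ev n => a.1.2.2) ((p, ν, R), q) := by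
      refine Continuous.continuousAt ?_
      fun_prop
    exact h8.eventually (lt_mem_nhds hR)
  have hall := hev.and (hev2.and hev3)
  rw [nhds_prod_eq, eventually_prod_iff] at hall
  obtain ⟨pa, hpa, pb, hpb, hab⟩ := hall
  obtain ⟨r₀, hr₀, hball⟩ := Metric.eventually_nhds_iff_ball.1 hpb
  obtain ⟨m', hm', hmass⟩ := hm r₀ hr₀
  have hs₀ : 0 < ‖w‖ / (2 * R) := div_pos hwn (by linarith)
  have hl1 : ∀ᶠ l in atTop, pa (x l, ‖H.gr (u (j l)) (x l)‖⁻¹ • H.gr (u (j l)) (x l), ρ (j l)) := by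
    have := hx.prodMk_nhds (hνl.prodMk_nhds (hρ.comp hj))
    exact this.eventually hpa
  have hl2 : ∀ᶠ l in atTop, 2 * δ l < ‖w‖ / (2 * R) := by
    have : Tendsto (fun l => 2 * δ l) atTop (𝓝 (2 * 0)) := hδ0.const_mul 2
    rw [mul_zero] at this
    exact this.eventually (gt_mem_nhds hs₀)
  have hl3 := hj.eventually hmass
  have hfin : ∀ᶠ l in atTop, ENNReal.ofReal (m / 2) * ENNReal.ofReal m' ≤
      H.Gk (k l) (u (j l)) (ρ (j l)) (x l) := by
    filter_upwards [hl1, hl2, hl3] with l h1 h2 h3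
    refine le_trans (mul_le_mul_right h3 _) ?_
    refine H.G_lower (k l) (hu (j l)) (x l) Metric.isOpen_ball.measurableSet (by linarith) ?_
    intro w' hw' hg'
    obtain ⟨e1, e2, e3⟩ := hab h1 (hball _ hw')
    dsimp only at e1 e2 e3
    rw [hlg2] at e1 e2
    have hρ0 : 0 < ρ (j l) := e3
    have hpos : 0 < ‖w'‖ / ρ (j l) := lt_trans hs₀ e2
    have hg0 := hgr l
    have hgn : ‖H.gr (u (j l)) (x l)‖ ≠ 0 := norm_ne_zero_iff.2 hg0
    have hgn' : ‖H.gr (u (j l)) (H.Ex (x l) w')‖ ≠ 0 := norm_ne_zero_iff.2 hg'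
    have e4 := e1 (‖H.gr (u (j l)) (H.Ex (x l) w')‖⁻¹ • H.gr (u (j l)) (H.Ex (x l) w')) (by
      rw [mem_sphere_zero_iff_norm, norm_smul, norm_inv, norm_norm, inv_mul_cancel₀ hgn'])
    unfold Eraw at e4
    have c1 : -(inner ℝ (‖H.gr (u (j l)) (H.Ex (x l) w')‖⁻¹ • H.gr (u (j l)) (H.Ex (x l) w'))
        (H.ve (x l) w')) / ‖w'‖ = H.cy (u (j l)) (x l) w' := by
      unfold cy
      rw [real_inner_smul_left]
      field_simp
    have c2 : inner ℝ (‖H.gr (u (j l)) (x l)‖⁻¹ • H.gr (u (j l)) (x l)) w' / ‖w'‖ =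
        H.cx (u (j l)) (x l) w' := by
      unfold cx
      rw [real_inner_smul_left]
      field_simp
    rw [c1, c2] at e4
    rw [(hk l).B_eq _ _ _ (lt_trans h2 e2)]
    have hth : 0 < H.th (x l) w' := lt_of_lt_of_le one_pos (H.one_le_th _ _)
    have h9 := mker_cut_le (hδ l) (hk l) (x := H.cy (u (j l)) (x l) w')
      (y := H.cx (u (j l)) (x l) w') hpos
    have h10 := div_le_div_of_nonneg_right h9 hth.le
    linarith
  have hle := ge_of_tendsto hG hfin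
  have hpos : 0 < ENNReal.ofReal (m / 2) * ENNReal.ofReal m' :=
    ENNReal.mul_pos (by simpa using hm0) (by simpa using hm')
  exact absurd hle (not_le.2 hpos)

end HData

end Vale.Agent.Lib.P219
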