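import Vale.Agent.Lib.P219.Mo.Final
import Vale.Agent.Lib.P219.Ri.Defs

/-!
# P219 rigidity: existence of a minimising sequence

From `approx` (Mo/Approx, with `ε = 1/(j+1)`), `convex_exhaustion`, and for the lower bound of
`liminf A (u_j)` from `partA` (as in the proof of `fin_key` in Mo/Final: for every
`c < n ω^{1/n}` and `j` large `u_j ∈ Adm K h`, so `c V(u_j)^α ≤ A (u_j)`; `V (u_j) → |Ω|`).
`vol_eq_gvol` identifies the volumes.
-/

namespace Vale.Agent.Lib.P219

open MeasureTheory Set Filter Topology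
open scoped ENNReal ContDiff

variable {n : ℕ} {g : Ev n → (Ev n →L[ℝ] Ev n →L[ℝ] ℝ)}

private theorem seq_lower {H : HData n} {Ω K : Set (Ev n)} (hn : 2 ≤ n) (hm : MeasurableSet Ω)
    (hfin : H.vol Ω ≠ ⊤) {h : ℝ} (hh : 0 < h) {c : ℝ} (hc : 0 ≤ c)
    (hA : ∀ u, H.Adm K h u → c * H.V u ^ (((n : ℝ) - 1) / n) ≤ H.A u)
    {ε : ℝ} (_hε : 0 < ε) (hεm : ε < (H.vol Ω).toReal)
    (hεh : ε * (1 + h) < h * (H.vol Ω).toReal) (hK : IsCompact K)
    {u : Ev n → ℝ} (hu1 : ContDiff ℝ 1 u) (hu2 : tsupport u ⊆ K) (hu3 : ∀ x, 0 ≤ u x)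
    (hu4 : ∀ x, u x ≤ 1)
    (hu5 : ∫ x, |u x - Ω.indicator (1 : Ev n → ℝ) x| ∂H.vol ≤ ε) :
    c * ((H.vol Ω).toReal - ε) ^ (((n : ℝ) - 1) / n) ≤ H.A u := by
  set m := (H.vol Ω).toReal with hmdef
  have hn2 : (2 : ℝ) ≤ n := by exact_mod_cast hn
  have hα : 0 < ((n : ℝ) - 1) / n := by
    apply div_pos <;> linarith
  have hind : Integrable (Ω.indicator (1 : Ev n → ℝ)) H.vol :=
    (integrable_indicator_iff hm).mpr (integrableOn_const hfin)
  have hindI : ∫ x, Ω.indicator (1 : Ev n → ℝ) x ∂H.vol = m := by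
    rw [integral_indicator_one hm]
    rfl
  have hus : HasCompactSupport u := hK.of_isClosed_subset (isClosed_tsupport u) hu2
  have hui : Integrable u H.vol := H.integrable_of_continuous hu1.continuous hus
  have hdi : Integrable (fun x => |u x - Ω.indicator (1 : Ev n → ℝ) x|) H.vol :=
    (hui.sub hind).abs
  have hV : m - ε ≤ H.V u := by
    have h1 : ∫ x, (Ω.indicator (1 : Ev n → ℝ) x - u x) ∂H.vol
        ≤ ∫ x, |u x - Ω.indicator (1 : Ev n → ℝ) x| ∂H.vol := by
      refine integral_mono (hind.sub hui) hdi fun x => ?_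
      show Ω.indicator (1 : Ev n → ℝ) x - u x ≤ |u x - Ω.indicator (1 : Ev n → ℝ) x|
      rw [abs_sub_comm]
      exact le_abs_self _
    rw [integral_sub hind hui, hindI] at h1
    unfold HData.V
    linarith
  have hVpos : 0 < H.V u := by linarith
  have hlay : ∫ x, u x * (1 - u x) ∂H.vol ≤ h * H.V u := by
    have h1 : ∫ x, u x * (1 - u x) ∂H.vol
        ≤ ∫ x, |u x - Ω.indicator (1 : Ev n → ℝ) x| ∂H.vol := by
      refine integral_mono_of_nonneg (Filter.Eventually.of_forall fun x => ?_) hdi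
        (Filter.Eventually.of_forall fun x => ?_)
      · have h3 := hu3 x
        have h4 := hu4 x
        simp only [Pi.zero_apply]
        exact mul_nonneg h3 (by linarith)
      · have h3 := hu3 x
        have h4 := hu4 x
        show u x * (1 - u x) ≤ |u x - Ω.indicator (1 : Ev n → ℝ) x|
        by_cases hx : x ∈ Ω
        · rw [indicator_of_mem hx, Pi.one_apply, abs_sub_comm, abs_of_nonneg (by linarith)]
          nlinarith
        · rw [indicator_of_notMem hx, sub_zero, abs_of_nonneg h3]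
          nlinarith
    have h2 : h * (m - ε) ≤ h * H.V u := mul_le_mul_of_nonneg_left hV hh.le
    nlinarith
  have hadm : H.Adm K h u := ⟨hu1, hu2, hu3, hu4, hVpos, hlay⟩
  have h7 := hA u hadm
  have h8 : (m - ε) ^ (((n : ℝ) - 1) / n) ≤ (H.V u) ^ (((n : ℝ) - 1) / n) :=
    Real.rpow_le_rpow (by linarith) hV hα.le
  have h9 : c * (m - ε) ^ (((n : ℝ) - 1) / n) ≤ c * (H.V u) ^ (((n : ℝ) - 1) / n) :=
    mul_le_mul_of_nonneg_left h8 hc
  linarith

theorem exists_minSeq (hn : 2 ≤ n) (hk : HasKer n) (hg : IsMetric g) {H : HData n}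
    (hH : Represents H g) {Ω : Set (Ev n)} (hΩ : Bornology.IsBounded Ω) (hm : MeasurableSet Ω)
    (hpos : H.vol Ω ≠ 0)
    (heq : per g Ω = ENNReal.ofReal (n * om n ^ ((1 : ℝ) / n))
      * (gvol g Ω) ^ (((n : ℝ) - 1) / n)) :
    ∃ K : Set (Ev n), IsCompact K ∧ H.Conv K ∧ ∃ u, H.MinSeq Ω K u := by
  have hn2 : (2 : ℝ) ≤ n := by exact_mod_cast hn
  have hα : 0 < ((n : ℝ) - 1) / n := by
    apply div_pos <;> linarith
  have hfin : H.vol Ω ≠ ⊤ := by
    have := H.vol_isFiniteMeasureOnCompacts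
    have h1 : H.vol (closure Ω) < ⊤ := hΩ.isCompact_closure.measure_lt_top
    exact ((measure_mono subset_closure).trans_lt h1).ne
  have hm0 : 0 < (H.vol Ω).toReal := ENNReal.toReal_pos hpos hfin
  have hB : 0 < (n : ℝ) * om n ^ ((1 : ℝ) / n) := by
    have := om_pos n
    have h2 : 0 < om n ^ ((1 : ℝ) / n) := Real.rpow_pos_of_pos this _
    exact mul_pos (by linarith) h2
  rw [← vol_eq_gvol hH] at heq
  have hrp : (H.vol Ω) ^ (((n : ℝ) - 1) / n) ≠ ⊤ := ENNReal.rpow_ne_top_of_nonneg hα.le hfin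
  have hp : per g Ω ≠ ⊤ := by
    rw [heq]
    exact ENNReal.mul_ne_top ENNReal.ofReal_ne_top hrp
  have hpR : (per g Ω).toReal
      = n * om n ^ ((1 : ℝ) / n) * (H.vol Ω).toReal ^ (((n : ℝ) - 1) / n) := by
    rw [heq, ENNReal.toReal_mul, ENNReal.toReal_ofReal hB.le, ENNReal.toReal_rpow]
  obtain ⟨K₀, hK₀, happ⟩ := approx hg hH hΩ hm hp
  obtain ⟨K, hK, hK₀K, hKc⟩ := H.convex_exhaustion K₀ hK₀
  have hεpos : ∀ j : ℕ, (0 : ℝ) < 1 / ((j : ℝ) + 1) := fun j => by positivity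
  choose u hu1 hu2 hu3 hu4 hu5 hu6 using fun j : ℕ => happ (1 / ((j : ℝ) + 1)) (hεpos j)
  have hεt : Tendsto (fun j : ℕ => 1 / ((j : ℝ) + 1)) atTop (𝓝 0) :=
    tendsto_one_div_add_atTop_nhds_zero_nat
  refine ⟨K, hK, hKc, u, hu1, fun j => (hu2 j).trans hK₀K, hu3, hu4, ?_, ?_⟩
  · exact squeeze_zero (fun j => integral_nonneg fun x => abs_nonneg _) hu5 hεt
  · rw [← hpR]
    set p := (per g Ω).toReal with hpdef
    refine tendsto_order.2 ⟨fun a ha => ?_, fun a ha => ?_⟩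
    · -- lower bound
      have t1 : Tendsto (fun c : ℝ => c * (H.vol Ω).toReal ^ (((n : ℝ) - 1) / n))
          (𝓝[<] (n * om n ^ ((1 : ℝ) / n)))
          (𝓝 ((n * om n ^ ((1 : ℝ) / n)) * (H.vol Ω).toReal ^ (((n : ℝ) - 1) / n))) := by
        have : Continuous (fun c : ℝ => c * (H.vol Ω).toReal ^ (((n : ℝ) - 1) / n)) := by
          fun_prop
        exact (this.tendsto _).mono_left nhdsWithin_le_nhds
      have e1 : ∀ᶠ c : ℝ in 𝓝[<] (n * om n ^ ((1 : ℝ) / n)), 0 < c :=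
        (eventually_gt_nhds hB).filter_mono nhdsWithin_le_nhds
      rw [hpR] at ha
      obtain ⟨c, hc1, hc2, hc3⟩ :=
        (((t1.eventually (lt_mem_nhds ha)).and (e1.and self_mem_nhdsWithin))).exists
      obtain ⟨h, hh, hA⟩ := H.partA hn hk hK hKc hc3
      have e2 : ∀ᶠ j : ℕ in atTop, 1 / ((j : ℝ) + 1) < (H.vol Ω).toReal :=
        hεt.eventually (gt_mem_nhds hm0)
      have e3 : ∀ᶠ j : ℕ in atTop, 1 / ((j : ℝ) + 1) < h * (H.vol Ω).toReal / (1 + h) := by
        have : 0 < h * (H.vol Ω).toReal / (1 + h) := by positivity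
        exact hεt.eventually (gt_mem_nhds this)
      have t2 : Tendsto (fun j : ℕ => c * ((H.vol Ω).toReal - 1 / ((j : ℝ) + 1))
          ^ (((n : ℝ) - 1) / n)) atTop
          (𝓝 (c * (H.vol Ω).toReal ^ (((n : ℝ) - 1) / n))) := by
        have hcont : Continuous (fun ε : ℝ => c * ((H.vol Ω).toReal - ε)
            ^ (((n : ℝ) - 1) / n)) := by
          refine continuous_const.mul ?_
          exact (continuous_const.sub continuous_id).rpow_const (fun _ => Or.inr hα.le)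
        have h1 := hcont.tendsto 0
        rw [sub_zero] at h1
        exact h1.comp hεt
      have e4 := t2.eventually (lt_mem_nhds hc1)
      filter_upwards [e2, e3, e4] with j h2 h3 h4
      refine h4.trans_le ?_
      refine seq_lower hn hm hfin hh hc2.le hA (hεpos j) h2 ?_ hK (hu1 j)
        ((hu2 j).trans hK₀K) (hu3 j) (hu4 j) (hu5 j)
      rw [lt_div_iff₀ (by linarith)] at h3
      exact h3
    · have t2 : Tendsto (fun j : ℕ => (1 + 1 / ((j : ℝ) + 1)) * p + 1 / ((j : ℝ) + 1)) atTop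
          (𝓝 p) := by
        have hcont : Continuous (fun ε : ℝ => (1 + ε) * p + ε) := by fun_prop
        have h1 := hcont.tendsto 0
        have h2 : (1 + (0 : ℝ)) * p + 0 = p := by ring
        rw [h2] at h1
        exact h1.comp hεt
      filter_upwards [t2.eventually (gt_mem_nhds ha)] with j hj
      exact (hu6 j).trans_lt hj

end Vale.Agent.Lib.P219
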