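import Vale.Agent.Lib.P219.Ri.Line

/-!
# P219 rigidity: the defect is controlled by the slack

In polar coordinates `w = t ω` (`lintegral_polar`, see the proof of `SM_Lk_le` in A/Lower1)
`SM (LkF mker)` is the integral over `x, w` of `ofReal (‖gr u x‖ ‖gr u (Ex x w)‖ mker)`.  For
`w ≠ 0`: `mker ≤ k.B ≤ k.B * th` (`k.B_nonneg'`, `k.B_lower`, `one_le_th`), so pointwise
`ofReal (p mker) + ofReal p * ofReal (q (B th - mker)) = ofReal (p q B th)` where `p = ‖gr u x‖`,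
`q = ‖gr u (Ex x w)‖` (for `w = 0` and `n ≥ 2`: `mker n d f 0 c c' = 0` as `0 ^ (n-1) = 0`).
-/

namespace Vale.Agent.Lib.P219

open MeasureTheory Set Filter Topology
open scoped ENNReal

namespace HData

variable {n : ℕ} (H : HData n) (k : Ker n)

theorem mker_le_B {r c c' : ℝ} (hr : 0 < r) (hc : |c| ≤ 1) (hc' : |c'| ≤ 1) :
    mker n k.d k.f r c c' ≤ k.B r c c' := by
  have hB := k.B_nonneg' r c c' hr.le hc hc'
  unfold mker
  rcases le_or_gt c 0 with h1 | h1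
  · rw [max_eq_right h1]
    simpa using hB
  rcases le_or_gt c' 0 with h2 | h2
  · rw [max_eq_right h2]
    simpa using hB
  rw [abs_of_pos h1] at hc
  rw [abs_of_pos h2] at hc'
  rw [abs_of_pos h1, abs_of_pos h2, max_eq_left h1.le, max_eq_left h2.le]
  rcases le_or_gt (k.d * r - k.f c - k.f c') 0 with h3 | h3
  · rw [max_eq_right h3]
    simpa using hB
  rw [max_eq_left h3.le, div_le_iff₀ (pow_pos hr _)]
  exact k.B_lower r c c' hr h1 hc h2 hc'

private theorem sl_abs_cy (u : Ev n → ℝ) (x w : Ev n) : |H.cy u x w| ≤ 1 := by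
  unfold cy
  rw [abs_div, abs_neg, abs_of_nonneg (by positivity : 0 ≤ ‖H.gr u (H.Ex x w)‖ * ‖w‖)]
  refine div_le_one_of_le₀ ?_ (by positivity)
  have h := abs_real_inner_le_norm (H.gr u (H.Ex x w)) (H.ve x w)
  rwa [H.norm_ve] at h

private theorem sl_abs_cx (u : Ev n → ℝ) (x w : Ev n) : |H.cx u x w| ≤ 1 := by
  unfold cx
  rw [abs_div, abs_of_nonneg (by positivity : 0 ≤ ‖H.gr u x‖ * ‖w‖)]
  exact div_le_one_of_le₀ (abs_real_inner_le_norm _ _) (by positivity)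

private theorem sl_cy_smul (u : Ev n → ℝ) (x ω : Ev n) (hω : ‖ω‖ = 1) {t : ℝ} (ht : 0 < t) :
    H.cy u x (t • ω) = -(H.cs u (H.fl t (x, ω))) := by
  unfold cy cs
  rw [H.Ex_smul, H.ve_smul, norm_smul, hω, mul_one, Real.norm_of_nonneg ht.le,
    real_inner_smul_right, neg_div]
  congr 1
  rw [mul_comm t, mul_div_mul_right _ _ ht.ne']

private theorem sl_cx_smul (u : Ev n → ℝ) (x ω : Ev n) (hω : ‖ω‖ = 1) {t : ℝ} (ht : 0 < t) :
    H.cx u x (t • ω) = H.cs u (x, ω) := by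
  unfold cx cs
  rw [norm_smul, hω, mul_one, Real.norm_of_nonneg ht.le, real_inner_smul_right]
  rw [mul_comm t, mul_div_mul_right _ _ ht.ne']

/-- the integrand of the chord functional in the variable `w` -/
private noncomputable def slF (u : Ev n → ℝ) (ρ₀ : ℝ) (x w : Ev n) : ℝ≥0∞ :=
  ENNReal.ofReal (‖H.gr u x‖ * ‖H.gr u (H.Ex x w)‖
      * mker n k.d k.f (‖w‖ / ρ₀) (H.cy u x w) (H.cx u x w))

private theorem sl_meas3 {α : Type*} [MeasurableSpace α] {F : ℝ → ℝ → ℝ → ℝ}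
    (hF : Measurable (fun p : ℝ × ℝ × ℝ => F p.1 p.2.1 p.2.2)) {a b c : α → ℝ}
    (ha : Measurable a) (hb : Measurable b) (hc : Measurable c) :
    Measurable (fun x => F (a x) (b x) (c x)) :=
  hF.comp (ha.prodMk (hb.prodMk hc))

private theorem sl_slice {F : Ev n → Ev n → ℝ}
    (hF : Measurable (fun p : Ev n × Ev n => F p.1 p.2))
    (x : Ev n) : Measurable (F x) :=
  hF.comp measurable_prodMk_left

private theorem slF_meas {u : Ev n → ℝ} (hu : ContDiff ℝ 1 u) (ρ₀ : ℝ) (x : Ev n) :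
    Measurable (slF H k u ρ₀ x) := by
  have hgr : Measurable (fun x => ‖H.gr u x‖) := (H.gr_cont hu).norm.measurable
  have hEx : Measurable (fun w => H.Ex x w) :=
    (H.Ex_cont.comp (continuous_const.prodMk continuous_id)).measurable
  have hgr' : Measurable (fun w => ‖H.gr u (H.Ex x w)‖) := hgr.comp hEx
  have hcy : Measurable (H.cy u x) := sl_slice (H.cy_measurable hu) x
  have hcx : Measurable (H.cx u x) := sl_slice (H.cx_measurable hu) x
  have hr : Measurable (fun w : Ev n => ‖w‖ / ρ₀) := measurable_norm.div_const ρ₀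
  have hm : Measurable (fun w : Ev n =>
      mker n k.d k.f (‖w‖ / ρ₀) (H.cy u x w) (H.cx u x w)) :=
    sl_meas3 (F := mker n k.d k.f) (mker_measurable n k.d k.f_cont) hr hcy hcx
  have hg : Measurable (fun w => ‖H.gr u x‖ * ‖H.gr u (H.Ex x w)‖) := hgr'.const_mul _
  unfold slF
  exact (hg.mul hm).ennreal_ofReal

private theorem slF_polar (hn : 1 ≤ n) {u : Ev n → ℝ} (hu : ContDiff ℝ 1 u) {ρ₀ : ℝ}
    (x : Ev n) :
    ∫⁻ ω : Metric.sphere (0 : Ev n) 1, H.LkF (mker n k.d k.f) u ρ₀ (x, (ω : Ev n))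
      ∂(volume : Measure (Ev n)).toSphere = ∫⁻ w, slF H k u ρ₀ x w := by
  rw [lintegral_polar hn _ (slF_meas H k hu ρ₀ x)]
  refine lintegral_congr fun ω => ?_
  have hω : ‖(ω : Ev n)‖ = 1 := by simp
  unfold LkF
  refine setLIntegral_congr_fun measurableSet_Ioi fun t ht => ?_
  have ht' : 0 < t := ht
  have e1 : ‖t • (ω : Ev n)‖ = t := by
    rw [norm_smul, hω, mul_one, Real.norm_of_nonneg ht'.le]
  show _ = slF H k u ρ₀ x (t • (ω : Ev n)) * ENNReal.ofReal (t ^ (n - 1))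
  unfold slF
  rw [e1, H.Ex_smul, sl_cy_smul H u x ω hω ht', sl_cx_smul H u x ω hω ht',
    ← ENNReal.ofReal_mul' (by positivity)]

theorem slack (hn : 2 ≤ n) {u : Ev n → ℝ} (hu : ContDiff ℝ 1 u) {ρ₀ : ℝ} (hρ : 0 < ρ₀) :
    H.SM (H.LkF (mker n k.d k.f) u ρ₀) + H.Def k u ρ₀ ≤ H.Pair k.B u ρ₀ := by
  unfold SM Def Pair
  refine (le_lintegral_add _ _).trans (lintegral_mono fun x => ?_)
  show (∫⁻ ω : Metric.sphere (0 : Ev n) 1, H.LkF (mker n k.d k.f) u ρ₀ (x, (ω : Ev n))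
      ∂(volume : Measure (Ev n)).toSphere) + ENNReal.ofReal ‖H.gr u x‖ * H.Gk k u ρ₀ x
    ≤ ∫⁻ w, ENNReal.ofReal (‖H.gr u x‖ * ‖H.gr u (H.Ex x w)‖
    * k.B (‖w‖ / ρ₀) (H.cy u x w) (H.cx u x w) * H.th x w)
  rw [slF_polar H k (by omega) hu x]
  unfold Gk
  rw [← lintegral_const_mul' _ _ ENNReal.ofReal_ne_top]
  refine (le_lintegral_add _ _).trans (lintegral_mono fun w => ?_)
  show slF H k u ρ₀ x w + ENNReal.ofReal ‖H.gr u x‖ * ENNReal.ofReal (‖H.gr u (H.Ex x w)‖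
    * (k.B (‖w‖ / ρ₀) (H.cy u x w) (H.cx u x w) * H.th x w
      - mker n k.d k.f (‖w‖ / ρ₀) (H.cy u x w) (H.cx u x w))) ≤ _
  unfold slF
  have hcy := sl_abs_cy H u x w
  have hcx := sl_abs_cx H u x w
  have hr0 : 0 ≤ ‖w‖ / ρ₀ := by positivity
  have hB0 := k.B_nonneg' (‖w‖ / ρ₀) (H.cy u x w) (H.cx u x w) hr0 hcy hcx
  have hth1 := H.one_le_th x w
  have hm0 : 0 ≤ mker n k.d k.f (‖w‖ / ρ₀) (H.cy u x w) (H.cx u x w) := mker_nonneg hr0
  have hmB : mker n k.d k.f (‖w‖ / ρ₀) (H.cy u x w) (H.cx u x w)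
      ≤ k.B (‖w‖ / ρ₀) (H.cy u x w) (H.cx u x w) := by
    rcases hr0.eq_or_lt with h | h
    · rw [← h] at hB0 ⊢
      have h0 : mker n k.d k.f 0 (H.cy u x w) (H.cx u x w) = 0 := by
        unfold mker
        rw [zero_pow (by omega), div_zero]
      rw [h0]
      exact hB0
    · exact mker_le_B k h hcy hcx
  have hBth : k.B (‖w‖ / ρ₀) (H.cy u x w) (H.cx u x w)
      ≤ k.B (‖w‖ / ρ₀) (H.cy u x w) (H.cx u x w) * H.th x w :=
    le_mul_of_one_le_right hB0 hth1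
  have hd : 0 ≤ k.B (‖w‖ / ρ₀) (H.cy u x w) (H.cx u x w) * H.th x w
      - mker n k.d k.f (‖w‖ / ρ₀) (H.cy u x w) (H.cx u x w) := by linarith
  rw [← ENNReal.ofReal_mul (norm_nonneg _), ← ENNReal.ofReal_add (by positivity)
    (mul_nonneg (norm_nonneg _) (mul_nonneg (norm_nonneg _) hd))]
  refine ENNReal.ofReal_le_ofReal (le_of_eq ?_)
  ring

end HData

end Vale.Agent.Lib.P219
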