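import Vale.Agent.Lib.P219.A.Concl
import Vale.Agent.Lib.P219.Ri.Slack

/-!
# P219 rigidity: the defect of a near-minimiser

As `near_ineq` in A/Concl: `flat_lower + slack + pair_upper` give
`X + Def ≤ Y + Z` with `X = ρ^(n-1) (d/ρ) n ω ∫ u²`, `Y = (a+ε) A²`, `Z = ρ^(n-1) K' A`, hence
`Def ≤ ofReal (Y + Z - X)`, and `∫ u² ≥ (1-h) V`, `ρ A = n V`.
-/

namespace Vale.Agent.Lib.P219

open MeasureTheory Set Filter Topology
open scoped ENNReal

namespace HData

variable {n : ℕ} (H : HData n) (k : Ker n)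

private theorem near_K'_nonneg (hn : 2 ≤ n) : 0 ≤ k.K' := by
  have he : ‖(EuclideanSpace.single (⟨0, by omega⟩ : Fin n) (1 : ℝ) : Ev n)‖ = 1 := by
    simp
  refine le_trans ?_ (k.K'_bound _ he)
  exact integral_nonneg fun ω => mul_nonneg (abs_nonneg _) (k.f_nonneg _)

private theorem near_sq {K : Set (Ev n)} (hK : IsCompact K) {h : ℝ} {u : Ev n → ℝ}
    (hu : H.Adm K h u) : (1 - h) * H.V u ≤ ∫ x, u x ^ 2 ∂H.vol := by
  have hs : HasCompactSupport u := hK.of_isClosed_subset (isClosed_tsupport u) hu.supp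
  have hi : Integrable u H.vol := H.integrable_of_continuous hu.smooth.continuous hs
  have hs2 : HasCompactSupport (fun x => u x ^ 2) := by
    refine HasCompactSupport.intro hs fun x hx => ?_
    rw [image_eq_zero_of_notMem_tsupport hx]
    norm_num
  have hi2 : Integrable (fun x => u x ^ 2) H.vol :=
    H.integrable_of_continuous (hu.smooth.continuous.pow 2) hs2
  have h1 : ∫ x, u x * (1 - u x) ∂H.vol = H.V u - ∫ x, u x ^ 2 ∂H.vol := by
    unfold V
    rw [← integral_sub hi hi2]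
    refine integral_congr_ae (Filter.Eventually.of_forall fun x => ?_)
    show u x * (1 - u x) = u x - u x ^ 2
    ring
  have h2 := hu.layer
  rw [h1] at h2
  linarith

theorem Def_le (hn : 2 ≤ n) {K : Set (Ev n)} (hK : IsCompact K) {h : ℝ} {u : Ev n → ℝ}
    (hu : H.Adm K h u) (hA : 0 < H.A u) {ε : ℝ} (hε : 0 ≤ ε)
    (hE : ∀ x ∈ K, ∀ e : Ev n, ‖e‖ = 1 →
      H.FV k.g u (n * H.V u / H.A u) x e ≤ ε * H.A u) :
    H.Def k u (n * H.V u / H.A u) ≤ ENNReal.ofReal ((k.a + ε) * H.A u ^ 2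
      - (n * H.V u / H.A u) ^ (n - 1) * (k.d * om n * (1 - h) - k.K') * H.A u) := by
  have hV : 0 < H.V u := hu.mass_pos
  have hn0 : (0 : ℝ) < n := by
    have : 0 < n := by omega
    exact_mod_cast this
  have hρ : 0 < n * H.V u / H.A u := by positivity
  obtain ⟨ρ, hρdef⟩ : ∃ ρ, ρ = n * H.V u / H.A u := ⟨_, rfl⟩
  rw [← hρdef] at hE hρ ⊢
  have hL := H.flat_lower k hn hK hu.smooth hu.supp hu.nonneg hu.le_one hρ
  have hS := H.slack k hn hu.smooth hρ
  have hU := H.pair_upper k hu.smooth hK hu.supp hρ hε hE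
  have hK' : 0 ≤ k.K' := near_K'_nonneg k hn
  have hP : 0 ≤ ρ ^ (n - 1) := by positivity
  have hom : 0 ≤ om n := ENNReal.toReal_nonneg
  have hd := k.d_pos
  have ha := k.a_pos
  have h5 : ρ ^ (n - 1) * (k.d / ρ) * (n * om n * ((1 - h) * H.V u))
      ≤ ρ ^ (n - 1) * (k.d / ρ) * (n * om n * ∫ x, u x ^ 2 ∂H.vol) := by
    refine mul_le_mul_of_nonneg_left ?_ (by positivity)
    exact mul_le_mul_of_nonneg_left (near_sq H hK hu) (by positivity)
  have h6 : ρ * H.A u = n * H.V u := by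
    rw [hρdef]
    exact div_mul_cancel₀ _ hA.ne'
  have h7 : ρ ^ (n - 1) * (k.d / ρ) * (n * om n * ((1 - h) * H.V u))
      = (ρ ^ (n - 1) * (k.d * om n * (1 - h))) * H.A u := by
    have h8 : k.d / ρ * (n * H.V u) = k.d * H.A u := by
      rw [← h6]
      field_simp
    calc ρ ^ (n - 1) * (k.d / ρ) * (n * om n * ((1 - h) * H.V u))
        = ρ ^ (n - 1) * (k.d / ρ * (n * H.V u)) * om n * (1 - h) := by ring
      _ = (ρ ^ (n - 1) * (k.d * om n * (1 - h))) * H.A u := by rw [h8]; ring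
  rw [h7] at h5
  obtain ⟨X, hX⟩ : ∃ X, X = (ρ ^ (n - 1) * (k.d * om n * (1 - h))) * H.A u := ⟨_, rfl⟩
  obtain ⟨Y, hY⟩ : ∃ Y, Y = (k.a + ε) * H.A u ^ 2 := ⟨_, rfl⟩
  obtain ⟨Z, hZ⟩ : ∃ Z, Z = ρ ^ (n - 1) * (k.K' * H.A u) := ⟨_, rfl⟩
  rw [← hX] at h5
  rw [← hY] at hU
  rw [← hZ] at hL
  have hY0 : 0 ≤ Y := by rw [hY]; positivity
  have hZ0 : 0 ≤ Z := by rw [hZ]; positivity
  have hfin : (k.a + ε) * H.A u ^ 2 - ρ ^ (n - 1) * (k.d * om n * (1 - h) - k.K') * H.A u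
      = (Y + Z) - X := by
    rw [hX, hY, hZ]
    ring
  rw [hfin]
  have h9 : ENNReal.ofReal X + H.Def k u ρ ≤ ENNReal.ofReal X + ENNReal.ofReal (Y + Z - X) := by
    calc ENNReal.ofReal X + H.Def k u ρ
        ≤ (H.SM (H.LkF (mker n k.d k.f) u ρ) + ENNReal.ofReal Z) + H.Def k u ρ :=
          add_le_add ((ENNReal.ofReal_le_ofReal h5).trans hL) le_rfl
      _ = (H.SM (H.LkF (mker n k.d k.f) u ρ) + H.Def k u ρ) + ENNReal.ofReal Z := by ring
      _ ≤ ENNReal.ofReal Y + ENNReal.ofReal Z := add_le_add (hS.trans hU) le_rfl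
      _ = ENNReal.ofReal (X + (Y + Z - X)) := by
          rw [← ENNReal.ofReal_add hY0 hZ0]
          congr 1
          ring
      _ ≤ _ := ENNReal.ofReal_add_le
  exact (ENNReal.add_le_add_iff_left ENNReal.ofReal_ne_top).1 h9

end HData

end Vale.Agent.Lib.P219
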