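import Vale.Agent.Lib.P219.A.Main
import Vale.Agent.Lib.P219.Ri.Near

/-!
# P219 rigidity: limits along a minimising sequence

`V (u_j) → m = |Ω|` (`|V(u_j) - m| ≤ ∫ |u_j - 1_Ω|`), `n ω^{1/n} m^{(n-1)/n} = n ω R^{n-1}` with
`R = rad n m`, hence `n V / A → R`.  With `h_j = 2 ∫ |u_j - 1_Ω| / V(u_j) → 0` (so `> = 0`)
`u_j ∈ Adm K h_j` eventually (`∫ u (1-u) ≤ ∫ |u - 1_Ω|`), the lower bound needed in `first_var`
(`c₀ = n ω^{1/n}`) is `partA`, the upper bound is `A_lim`; then `Def_le` and pass to the limit.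
-/

namespace Vale.Agent.Lib.P219

open MeasureTheory Set Filter Topology
open scoped ENNReal

namespace HData

variable {n : ℕ} (H : HData n)

theorem rad_pos (hn : 2 ≤ n) {m : ℝ} (hm : 0 < m) : 0 < rad n m := by
  have _ := hn
  exact Real.rpow_pos_of_pos (div_pos hm (om_pos n)) _

theorem profile_rad (hn : 2 ≤ n) {m : ℝ} (hm : 0 < m) :
    n * om n ^ ((1 : ℝ) / n) * m ^ (((n : ℝ) - 1) / n) = n * om n * rad n m ^ (n - 1) := by
  have hom := om_pos n
  have hn0 : (n : ℝ) ≠ 0 := by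
    have : n ≠ 0 := by omega
    exact_mod_cast this
  have hn1 : ((n - 1 : ℕ) : ℝ) = (n : ℝ) - 1 := by
    have : 1 ≤ n := by omega
    push_cast [Nat.cast_sub this]
    ring
  have h1 : rad n m ^ (n - 1) = m ^ (((n : ℝ) - 1) / n) / om n ^ (((n : ℝ) - 1) / n) := by
    unfold rad
    rw [← Real.rpow_natCast, ← Real.rpow_mul (div_pos hm hom).le, hn1,
      Real.div_rpow hm.le hom.le]
    have h2 : (1 : ℝ) / n * ((n : ℝ) - 1) = ((n : ℝ) - 1) / n := by ring
    rw [h2]
  have h3 : om n = om n ^ ((1 : ℝ) / n) * om n ^ (((n : ℝ) - 1) / n) := by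
    rw [← Real.rpow_add hom]
    have h4 : (1 : ℝ) / n + ((n : ℝ) - 1) / n = 1 := by
      field_simp
      ring
    rw [h4, Real.rpow_one]
  have h5 : 0 < om n ^ (((n : ℝ) - 1) / n) := Real.rpow_pos_of_pos hom _
  rw [h1]
  calc n * om n ^ ((1 : ℝ) / n) * m ^ (((n : ℝ) - 1) / n)
      = n * (om n ^ ((1 : ℝ) / n) * om n ^ (((n : ℝ) - 1) / n))
        * (m ^ (((n : ℝ) - 1) / n) / om n ^ (((n : ℝ) - 1) / n)) := by
        field_simp
    _ = _ := by rw [← h3]

private theorem rad_pow (hn : 2 ≤ n) {m : ℝ} (hm : 0 < m) : om n * rad n m ^ n = m := by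
  have hom := om_pos n
  have hn0 : (n : ℝ) ≠ 0 := by
    have : n ≠ 0 := by omega
    exact_mod_cast this
  unfold rad
  rw [← Real.rpow_natCast, ← Real.rpow_mul (div_pos hm hom).le, one_div,
    inv_mul_cancel₀ hn0, Real.rpow_one]
  exact mul_div_cancel₀ _ hom.ne'

private theorem indicator_integrable {Ω : Set (Ev n)} (hΩ : Bornology.IsBounded Ω)
    (hm : MeasurableSet Ω) : Integrable (Ω.indicator (1 : Ev n → ℝ)) H.vol := by
  have := H.vol_isFiniteMeasureOnCompacts
  have h1 : H.vol Ω ≠ ⊤ := hΩ.measure_lt_top.ne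
  exact (integrable_indicator_iff hm).2 (integrableOn_const h1)

private theorem integral_indicator_one' {Ω : Set (Ev n)} (hm : MeasurableSet Ω) :
    ∫ x, Ω.indicator (1 : Ev n → ℝ) x ∂H.vol = (H.vol Ω).toReal := by
  rw [integral_indicator_one hm]
  rfl

private theorem seq_integrable {Ω K : Set (Ev n)} {u : ℕ → Ev n → ℝ} (hS : H.MinSeq Ω K u)
    (hK : IsCompact K) (j : ℕ) : Integrable (u j) H.vol :=
  H.integrable_of_continuous (hS.smooth j).continuous
    (hK.of_isClosed_subset (isClosed_tsupport _) (hS.supp j))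

private theorem seqLim_layer {Ω K : Set (Ev n)} {u : ℕ → Ev n → ℝ} (hS : H.MinSeq Ω K u)
    (hK : IsCompact K) (hΩ : Bornology.IsBounded Ω) (hm : MeasurableSet Ω) (j : ℕ) :
    ∫ x, u j x * (1 - u j x) ∂H.vol ≤
      ∫ x, |u j x - Ω.indicator (1 : Ev n → ℝ) x| ∂H.vol := by
  have hi := seq_integrable H hS hK j
  have hi2 : Integrable (fun x => u j x * (1 - u j x)) H.vol := by
    refine H.integrable_of_continuous ?_ ?_
    · have := (hS.smooth j).continuous
      fun_prop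
    · refine HasCompactSupport.intro
        (hK.of_isClosed_subset (isClosed_tsupport _) (hS.supp j)) fun x hx => ?_
      rw [image_eq_zero_of_notMem_tsupport hx, zero_mul]
  refine integral_mono hi2 ((hi.sub (indicator_integrable H hΩ hm)).abs) fun x => ?_
  show u j x * (1 - u j x) ≤ |u j x - Ω.indicator (1 : Ev n → ℝ) x|
  have h0 := hS.nonneg j x
  have h1 := hS.le_one j x
  by_cases hx : x ∈ Ω
  · rw [Set.indicator_of_mem hx, Pi.one_apply, abs_of_nonpos (by linarith)]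
    nlinarith
  · rw [Set.indicator_of_notMem hx, sub_zero, abs_of_nonneg h0]
    nlinarith

theorem MinSeq.V_lim {Ω K : Set (Ev n)} {u : ℕ → Ev n → ℝ} (hS : H.MinSeq Ω K u)
    (hK : IsCompact K) (hΩ : Bornology.IsBounded Ω) (hm : MeasurableSet Ω) :
    Tendsto (fun j => H.V (u j)) atTop (𝓝 (H.vol Ω).toReal) := by
  rw [tendsto_iff_dist_tendsto_zero]
  refine squeeze_zero (fun j => dist_nonneg) (fun j => ?_) hS.conv
  have hi := seq_integrable H hS hK j
  have hi2 := indicator_integrable H hΩ hm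
  rw [Real.dist_eq, ← integral_indicator_one' H hm]
  unfold V
  rw [← integral_sub hi hi2]
  exact abs_integral_le_integral_abs

theorem MinSeq.rho_lim (hn : 2 ≤ n) {Ω K : Set (Ev n)} {u : ℕ → Ev n → ℝ} (hS : H.MinSeq Ω K u)
    (hK : IsCompact K) (hΩ : Bornology.IsBounded Ω) (hm : MeasurableSet Ω)
    (hpos : 0 < (H.vol Ω).toReal) :
    Tendsto (fun j => n * H.V (u j) / H.A (u j)) atTop (𝓝 (rad n (H.vol Ω).toReal)) := by
  have hV := MinSeq.V_lim H hS hK hΩ hm
  have hA := hS.A_lim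
  have hR := rad_pos hn hpos
  have hom := om_pos n
  have hn0 : (0 : ℝ) < n := by
    have : 0 < n := by omega
    exact_mod_cast this
  rw [profile_rad hn hpos] at hA
  have h1 : (0 : ℝ) < n * om n * rad n (H.vol Ω).toReal ^ (n - 1) := by positivity
  have h2 := (hV.const_mul (n : ℝ)).div hA h1.ne'
  have h3 : (n : ℝ) * (H.vol Ω).toReal / (n * om n * rad n (H.vol Ω).toReal ^ (n - 1)) =
      rad n (H.vol Ω).toReal := by
    rw [div_eq_iff h1.ne']
    have h4 : rad n (H.vol Ω).toReal ^ n =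
        rad n (H.vol Ω).toReal * rad n (H.vol Ω).toReal ^ (n - 1) := by
      rw [← pow_succ']
      congr 1
      omega
    calc (n : ℝ) * (H.vol Ω).toReal = n * (om n * rad n (H.vol Ω).toReal ^ n) := by
          rw [rad_pow hn hpos]
      _ = _ := by
          rw [h4]
          ring
  rw [h3] at h2
  exact h2

theorem MinSeq.Def_small (hn : 2 ≤ n) (hk : HasKer n) (k : Ker n) {Ω K : Set (Ev n)}
    {u : ℕ → Ev n → ℝ} (hS : H.MinSeq Ω K u) (hK : IsCompact K) (hc : H.Conv K)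
    (hΩ : Bornology.IsBounded Ω) (hm : MeasurableSet Ω) (hpos : 0 < (H.vol Ω).toReal)
    {η : ℝ} (hη : 0 < η) :
    ∀ᶠ j in atTop, H.Def k (u j) (n * H.V (u j) / H.A (u j)) ≤
      ENNReal.ofReal (n * om n * rad n (H.vol Ω).toReal ^ (2 * (n - 1))
        * (k.a * (n * om n) - (k.d * om n - k.K')) + η) := by
  obtain ⟨m, hmdef⟩ : ∃ m, m = (H.vol Ω).toReal := ⟨_, rfl⟩
  obtain ⟨R, hRdef⟩ : ∃ R, R = rad n m := ⟨_, rfl⟩
  have hVl := MinSeq.V_lim H hS hK hΩ hm
  have hAl := hS.A_lim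
  have hρl := MinSeq.rho_lim H hn hS hK hΩ hm hpos
  rw [profile_rad hn hpos] at hAl
  have hAl' := hS.A_lim
  rw [← hmdef] at hVl hAl hρl hpos hAl' ⊢
  rw [← hRdef] at hAl hρl ⊢
  have hR : 0 < R := by
    rw [hRdef]
    exact rad_pos hn hpos
  have hom := om_pos n
  have hn0 : (0 : ℝ) < n := by
    have : 0 < n := by omega
    exact_mod_cast this
  obtain ⟨Ai, hAi⟩ : ∃ Ai, Ai = n * om n * R ^ (n - 1) := ⟨_, rfl⟩
  rw [← hAi] at hAl
  have hAipos : 0 < Ai := by
    rw [hAi]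
    positivity
  have hd := k.d_pos
  obtain ⟨C, hC⟩ : ∃ C, C = Ai ^ 2 + R ^ (n - 1) * (k.d * om n) * Ai := ⟨_, rfl⟩
  have hCpos : 0 < C := by
    rw [hC]
    positivity
  obtain ⟨t, ht⟩ : ∃ t, t = η / (2 * C) := ⟨_, rfl⟩
  have htpos : 0 < t := by
    rw [ht]
    positivity
  obtain ⟨ci, hci⟩ : ∃ ci, ci = (n : ℝ) * om n ^ ((1 : ℝ) / n) := ⟨_, rfl⟩
  have hcipos : 0 < ci := by
    rw [hci]
    have := Real.rpow_pos_of_pos hom ((1 : ℝ) / n)
    positivity
  obtain ⟨ε₁, hε₁, hFV⟩ := H.first_var k hn hK hc hcipos htpos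
  have hlt : (1 - ε₁) * ci < n * om n ^ ((1 : ℝ) / n) := by
    rw [← hci]
    nlinarith
  obtain ⟨h₀, hh₀, hlow⟩ := H.partA hn hk hK hc hlt
  obtain ⟨h, hh⟩ : ∃ h, h = min t (h₀ / 4) := ⟨_, rfl⟩
  have hhpos : 0 < h := by
    rw [hh]
    positivity
  have hht : h ≤ t := by
    rw [hh]
    exact min_le_left _ _
  have hhh : 4 * h ≤ h₀ := by
    have : h ≤ h₀ / 4 := by
      rw [hh]
      exact min_le_right _ _
    linarith
  -- eventually positive volume
  have hVpos : ∀ᶠ j in atTop, 0 < H.V (u j) := hVl.eventually_const_lt hpos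
  have hApos : ∀ᶠ j in atTop, 0 < H.A (u j) := hAl.eventually_const_lt hAipos
  -- eventually admissible
  have hlay : ∀ᶠ j in atTop, ∫ x, |u j x - Ω.indicator (1 : Ev n → ℝ) x| ∂H.vol ≤
      h * H.V (u j) := by
    have h1 : Tendsto (fun j => h * H.V (u j) -
        ∫ x, |u j x - Ω.indicator (1 : Ev n → ℝ) x| ∂H.vol) atTop (𝓝 (h * m - 0)) :=
      (hVl.const_mul h).sub hS.conv
    have h2 : 0 < h * m - 0 := by
      rw [sub_zero]
      positivity
    filter_upwards [h1.eventually_const_lt h2] with j hj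
    linarith
  -- eventually near optimal
  have hup : ∀ᶠ j in atTop, H.A (u j) ≤ (1 + ε₁) * ci * (H.V (u j)) ^ (((n : ℝ) - 1) / n) := by
    have hn1 : 0 ≤ ((n : ℝ) - 1) / n := by
      have : (1 : ℝ) ≤ n := by
        have : 1 ≤ n := by omega
        exact_mod_cast this
      have : 0 ≤ (n : ℝ) - 1 := by linarith
      positivity
    have h1 : Tendsto (fun j => (1 + ε₁) * ci * (H.V (u j)) ^ (((n : ℝ) - 1) / n) - H.A (u j))
        atTop (𝓝 ((1 + ε₁) * ci * m ^ (((n : ℝ) - 1) / n) -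
          n * om n ^ ((1 : ℝ) / n) * m ^ (((n : ℝ) - 1) / n))) :=
      ((hVl.rpow_const (Or.inr hn1)).const_mul _).sub hAl'
    have h2 : 0 < (1 + ε₁) * ci * m ^ (((n : ℝ) - 1) / n) -
          n * om n ^ ((1 : ℝ) / n) * m ^ (((n : ℝ) - 1) / n) := by
      rw [← hci]
      have h3 : 0 < m ^ (((n : ℝ) - 1) / n) := Real.rpow_pos_of_pos hpos _
      have h4 : (1 + ε₁) * ci * m ^ (((n : ℝ) - 1) / n) - ci * m ^ (((n : ℝ) - 1) / n) =
          ε₁ * ci * m ^ (((n : ℝ) - 1) / n) := by ring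
      rw [h4]
      positivity
    filter_upwards [h1.eventually_const_lt h2] with j hj
    linarith
  -- the limit of the bound
  have hlim : Tendsto (fun j => (k.a + t) * H.A (u j) ^ 2
        - (n * H.V (u j) / H.A (u j)) ^ (n - 1) * (k.d * om n * (1 - h) - k.K') * H.A (u j))
      atTop (𝓝 ((k.a + t) * Ai ^ 2 - R ^ (n - 1) * (k.d * om n * (1 - h) - k.K') * Ai)) :=
    ((hAl.pow 2).const_mul _).sub (((hρl.pow (n - 1)).mul_const _).mul hAl)
  have hval : (k.a + t) * Ai ^ 2 - R ^ (n - 1) * (k.d * om n * (1 - h) - k.K') * Ai <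
      n * om n * R ^ (2 * (n - 1)) * (k.a * (n * om n) - (k.d * om n - k.K')) + η := by
    have h1 : n * om n * R ^ (2 * (n - 1)) * (k.a * (n * om n) - (k.d * om n - k.K')) =
        k.a * Ai ^ 2 - R ^ (n - 1) * (k.d * om n - k.K') * Ai := by
      rw [hAi, two_mul, pow_add]
      ring
    have h2 : (k.a + t) * Ai ^ 2 - R ^ (n - 1) * (k.d * om n * (1 - h) - k.K') * Ai =
        k.a * Ai ^ 2 - R ^ (n - 1) * (k.d * om n - k.K') * Ai +
        (t * Ai ^ 2 + h * (R ^ (n - 1) * (k.d * om n) * Ai)) := by ring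
    have h3 : t * Ai ^ 2 + h * (R ^ (n - 1) * (k.d * om n) * Ai) ≤ t * C := by
      rw [hC, mul_add]
      have h4 : h * (R ^ (n - 1) * (k.d * om n) * Ai) ≤ t * (R ^ (n - 1) * (k.d * om n) * Ai) :=
        mul_le_mul_of_nonneg_right hht (by positivity)
      linarith
    have h5 : t * C = η / 2 := by
      rw [ht]
      field_simp
    rw [h1, h2]
    linarith
  filter_upwards [hVpos, hApos, hlay, hup, hlim.eventually_lt_const hval] with j h1 h2 h3 h4 h5
  have hadm : H.Adm K h (u j) :=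
    { smooth := hS.smooth j
      supp := hS.supp j
      nonneg := hS.nonneg j
      le_one := hS.le_one j
      mass_pos := h1
      layer := (seqLim_layer H hS hK hΩ hm j).trans h3 }
  have hE := hFV h (u j) hadm h4 (fun v hv => hlow v (hv.mono H hhh))
  refine (H.Def_le k hn hK hadm h2 htpos.le hE).trans ?_
  exact ENNReal.ofReal_le_ofReal h5.le

end HData

end Vale.Agent.Lib.P219
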