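import Vale.Agent.Lib.P219.A.Lower3
import Vale.Agent.Lib.P219.Ri.Defs

/-!
# P219 rigidity: the lower bound with the chord kernel (flat Jacobian)

Same proofs as `HData.line_ineq` (A/Lower2) and `HData.pair_lower` (A/Lower3) with the kernel
`k.B` replaced by `mker n k.d k.f` and without the last step `SM_Lk_le`.  For the pointwise step
(`lower2_point`): if `c, c' > 0` then
`mker n k.d k.f (t / ρ₀) c' c * (t / ρ₀)^(n-1) = c' c (d t/ρ₀ - f c' - f c)₊ ≥ c' c (d t/ρ₀ - f c' - f c)`.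
Copy the private lemmas you need.
-/

namespace Vale.Agent.Lib.P219

open MeasureTheory Set Filter Topology
open scoped ENNReal

theorem mker_nonneg {n : ℕ} {d : ℝ} {f : ℝ → ℝ} {r c c' : ℝ} (hr : 0 ≤ r) :
    0 ≤ mker n d f r c c' := by
  unfold mker
  positivity

theorem mker_measurable (n : ℕ) (d : ℝ) {f : ℝ → ℝ} (hf : Continuous f) :
    Measurable (fun p : ℝ × ℝ × ℝ => mker n d f p.1 p.2.1 p.2.2) := by
  unfold mker
  have h1 : Measurable (fun p : ℝ × ℝ × ℝ => p.1) := measurable_fst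
  have h2 : Measurable (fun p : ℝ × ℝ × ℝ => p.2.1) := measurable_fst.comp measurable_snd
  have h3 : Measurable (fun p : ℝ × ℝ × ℝ => p.2.2) := measurable_snd.comp measurable_snd
  have h4 : Measurable (fun p : ℝ × ℝ × ℝ => f |p.2.1|) := hf.measurable.comp h2.abs
  have h5 : Measurable (fun p : ℝ × ℝ × ℝ => f |p.2.2|) := hf.measurable.comp h3.abs
  exact (((h2.max measurable_const).mul (h3.max measurable_const)).mul
    ((((h1.const_mul d).sub h4).sub h5).max measurable_const)).div (h1.pow_const _)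

namespace HData

variable {n : ℕ} (H : HData n) (k : Ker n)

private theorem ri_hasDerivAt {u : Ev n → ℝ} (hu : ContDiff ℝ 1 u) (v : Ev n × Ev n) (t : ℝ) :
    HasDerivAt (fun s => u (H.fl s v).1)
      (fderiv ℝ u (H.fl t v).1 (H.L (H.fl t v).1 (H.fl t v).2)) t := by
  have h1 : HasFDerivAt u (fderiv ℝ u (H.fl t v).1) (H.fl t v).1 :=
    (hu.differentiable (by norm_num) _).hasFDerivAt
  exact h1.comp_hasDerivAt t (H.fl_deriv t v)

private theorem ri_deriv {u : Ev n → ℝ} (hu : ContDiff ℝ 1 u) (v : Ev n × Ev n) (t : ℝ) :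
    deriv (fun s => u (H.fl s v).1) t
      = inner ℝ (H.gr u (H.fl t v).1) (H.fl t v).2 := by
  rw [(ri_hasDerivAt H hu v t).deriv]
  unfold HData.gr
  rw [InnerProductSpace.toDual_symm_apply]
  rfl

private theorem ri_inner (u : Ev n → ℝ) (v : Ev n × Ev n) :
    inner ℝ (H.gr u v.1) v.2 = ‖H.gr u v.1‖ * H.cs u v := by
  unfold HData.cs
  by_cases h : ‖H.gr u v.1‖ = 0
  · have : H.gr u v.1 = 0 := norm_eq_zero.1 h
    rw [this]
    simp
  · field_simp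

private theorem ri_shift (F : ℝ → ℝ≥0∞) (a : ℝ) :
    ∫⁻ b in Ioi a, F b = ∫⁻ t in Ioi (0 : ℝ), F (a + t) := by
  rw [← lintegral_indicator measurableSet_Ioi, ← lintegral_indicator measurableSet_Ioi,
    ← lintegral_add_left_eq_self _ a]
  refine lintegral_congr fun t => ?_
  by_cases ht : 0 < t
  · rw [indicator_of_mem (show a + t ∈ Ioi a by simpa using ht),
      indicator_of_mem (show t ∈ Ioi (0:ℝ) from ht)]
  · rw [indicator_of_notMem (show a + t ∉ Ioi a by simpa using ht),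
      indicator_of_notMem (show t ∉ Ioi (0:ℝ) from ht)]

private theorem ri_B (r c c' : ℝ) (hr : 0 < r) (hc : 0 < c) (hc' : 0 < c') :
    c * c' * (k.d * r - k.f c - k.f c') ≤ mker n k.d k.f r c c' * r ^ (n - 1) := by
  unfold mker
  rw [div_mul_cancel₀ _ (pow_pos hr _).ne', max_eq_left hc.le, max_eq_left hc'.le,
    abs_of_pos hc, abs_of_pos hc']
  exact mul_le_mul_of_nonneg_left (le_max_left _ _) (mul_nonneg hc.le hc'.le)

private theorem ri_point {ρ₀ : ℝ} (hρ : 0 < ρ₀) (t p q c c' : ℝ) (ht : 0 < t)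
    (hp : 0 ≤ p) (hq : 0 ≤ q) (hc : |c| ≤ 1) (hc' : |c'| ≤ 1) :
    ENNReal.ofReal (p * c) * ENNReal.ofReal (-(q * -c'))
      * (ENNReal.ofReal (ρ₀ ^ (n - 1) * (k.d / ρ₀) * t)
        - (ENNReal.ofReal (ρ₀ ^ (n - 1) * k.f |c|) + ENNReal.ofReal (ρ₀ ^ (n - 1) * k.f |(-c')|)))
      ≤ ENNReal.ofReal (p * q * mker n k.d k.f (t / ρ₀) c' c * t ^ (n - 1)) := by
  by_cases h1 : p * c ≤ 0
  · rw [ENNReal.ofReal_of_nonpos h1, zero_mul, zero_mul]
    exact zero_le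
  by_cases h2 : -(q * -c') ≤ 0
  · rw [ENNReal.ofReal_of_nonpos h2, mul_zero, zero_mul]
    exact zero_le
  push Not at h1 h2
  have h2' : 0 < q * c' := by linarith
  have hc0 : 0 < c := by
    by_contra h
    push Not at h
    nlinarith
  have hc0' : 0 < c' := by
    by_contra h
    push Not at h
    nlinarith
  have hP : (0 : ℝ) < ρ₀ ^ (n - 1) := pow_pos hρ _
  have e1 : -(q * -c') = q * c' := by ring
  rw [e1, abs_neg, abs_of_pos hc0, abs_of_pos hc0',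
    ← ENNReal.ofReal_add (mul_nonneg hP.le (k.f_nonneg _)) (mul_nonneg hP.le (k.f_nonneg _)),
    ← ENNReal.ofReal_sub _ (add_nonneg (mul_nonneg hP.le (k.f_nonneg _))
      (mul_nonneg hP.le (k.f_nonneg _))),
    ← ENNReal.ofReal_mul h1.le, ← ENNReal.ofReal_mul (mul_nonneg h1.le h2'.le)]
  refine ENNReal.ofReal_le_ofReal ?_
  have hB := ri_B k (t / ρ₀) c' c (div_pos ht hρ) hc0' hc0
  have hm : 0 ≤ p * q * ρ₀ ^ (n - 1) := mul_nonneg (mul_nonneg hp hq) hP.le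
  have h3 := mul_le_mul_of_nonneg_left hB hm
  have e2 : p * q * ρ₀ ^ (n - 1) * (mker n k.d k.f (t / ρ₀) c' c * (t / ρ₀) ^ (n - 1))
      = p * q * mker n k.d k.f (t / ρ₀) c' c * t ^ (n - 1) := by
    rw [div_pow]
    field_simp
  rw [e2] at h3
  refine le_trans (le_of_eq ?_) h3
  field_simp
  ring

private theorem ri_fl_meas : Measurable (fun p : (Ev n × Ev n) × ℝ => H.fl p.2 p.1) :=
  (H.fl_cont.comp (continuous_snd.prodMk continuous_fst)).measurable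

private theorem ri_meas3 {α : Type*} [MeasurableSpace α] {F : ℝ → ℝ → ℝ → ℝ}
    (hF : Measurable (fun p : ℝ × ℝ × ℝ => F p.1 p.2.1 p.2.2)) {a b c : α → ℝ}
    (ha : Measurable a) (hb : Measurable b) (hc : Measurable c) :
    Measurable (fun x => F (a x) (b x) (c x)) :=
  hF.comp (ha.prodMk (hb.prodMk hc))

theorem LkF_measurable {u : Ev n → ℝ} (hu : ContDiff ℝ 1 u) {F : ℝ → ℝ → ℝ → ℝ}
    (hF : Measurable (fun p : ℝ × ℝ × ℝ => F p.1 p.2.1 p.2.2)) (ρ₀ : ℝ) :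
    Measurable (H.LkF F u ρ₀) := by
  have hfl := ri_fl_meas H
  have hgr : Measurable (fun x => ‖H.gr u x‖) := (H.gr_cont hu).norm.measurable
  have hcs := H.cs_measurable hu
  have h1 : Measurable (fun p : (Ev n × Ev n) × ℝ => ‖H.gr u p.1.1‖) :=
    hgr.comp (measurable_fst.comp measurable_fst)
  have h2 : Measurable (fun p : (Ev n × Ev n) × ℝ => ‖H.gr u (H.fl p.2 p.1).1‖) :=
    hgr.comp (measurable_fst.comp hfl)
  have h3 : Measurable (fun p : (Ev n × Ev n) × ℝ =>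
      F (p.2 / ρ₀) (-(H.cs u (H.fl p.2 p.1))) (H.cs u p.1)) :=
    ri_meas3 hF (measurable_snd.div_const ρ₀) (hcs.comp hfl).neg
      (hcs.comp measurable_fst)
  have h4 : Measurable (fun p : (Ev n × Ev n) × ℝ => p.2 ^ (n - 1)) :=
    measurable_snd.pow_const _
  have h5 : Measurable (fun p : (Ev n × Ev n) × ℝ =>
      ENNReal.ofReal (‖H.gr u p.1.1‖ * ‖H.gr u (H.fl p.2 p.1).1‖
        * F (p.2 / ρ₀) (-(H.cs u (H.fl p.2 p.1))) (H.cs u p.1) * p.2 ^ (n - 1))) :=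
    (((h1.mul h2).mul h3).mul h4).ennreal_ofReal
  exact h5.lintegral_prod_right'

/-- the Line Lemma on a geodesic, with the chord kernel -/
theorem line_ineq_m (hn : 1 ≤ n) {K : Set (Ev n)} (hK : IsCompact K) {u : Ev n → ℝ}
    (hu : ContDiff ℝ 1 u) (hs : tsupport u ⊆ K) (h0 : ∀ y, 0 ≤ u y) (h1 : ∀ y, u y ≤ 1)
    {ρ₀ : ℝ} (hρ : 0 < ρ₀) (v : Ev n × Ev n) (hv : ‖v.2‖ = 1) :
    ENNReal.ofReal (ρ₀ ^ (n - 1) * (k.d / ρ₀)) * ∫⁻ s : ℝ, ENNReal.ofReal (u (H.fl s v).1 ^ 2)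
      ≤ (∫⁻ s : ℝ, H.LkF (mker n k.d k.f) u ρ₀ (H.fl s v))
        + ∫⁻ s : ℝ, ENNReal.ofReal (ρ₀ ^ (n - 1) * (‖H.gr u (H.fl s v).1‖
          * (|H.cs u (H.fl s v)| * k.f |H.cs u (H.fl s v)|))) := by
  have hflc : Continuous (fun t : ℝ => H.fl t v) :=
    H.fl_cont.comp (continuous_id.prodMk continuous_const)
  have hP : (0 : ℝ) < ρ₀ ^ (n - 1) := pow_pos hρ _
  have hd : 0 ≤ ρ₀ ^ (n - 1) * (k.d / ρ₀) := mul_nonneg hP.le (div_nonneg k.d_pos.le hρ.le)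
  have hcs : Measurable (fun s : ℝ => H.cs u (H.fl s v)) :=
    (H.cs_measurable hu).comp hflc.measurable
  have hφ : Measurable (fun s : ℝ =>
      ENNReal.ofReal (ρ₀ ^ (n - 1) * k.f |H.cs u (H.fl s v)|)) :=
    ((k.f_cont.measurable.comp (continuous_abs.measurable.comp hcs)).const_mul _).ennreal_ofReal
  have hcsle : ∀ s, |H.cs u (H.fl s v)| ≤ 1 := fun s =>
    H.cs_abs_le u _ (by rw [H.fl_norm, hv])
  have main := LL.line_lemma (H.good_line hK hu hs h0 h1 v hv) hd hφ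
  refine main.trans (add_le_add ?_ (le_of_eq ?_))
  · refine lintegral_mono fun a => ?_
    rw [ri_shift]
    unfold HData.LkF
    refine lintegral_mono_ae ?_
    rw [ae_restrict_iff' measurableSet_Ioi]
    refine Eventually.of_forall fun t ht => ?_
    have ht' : 0 < t := ht
    rw [ri_deriv H hu v a, ri_deriv H hu v (a + t), ri_inner H u (H.fl a v),
      ri_inner H u (H.fl (a + t) v)]
    have e3 : H.fl (a + t) v = H.fl t (H.fl a v) := by rw [add_comm, H.fl_add]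
    rw [e3]
    have h9 := ri_point k hρ t ‖H.gr u (H.fl a v).1‖ ‖H.gr u (H.fl t (H.fl a v)).1‖
      (H.cs u (H.fl a v)) (-(H.cs u (H.fl t (H.fl a v)))) ht' (norm_nonneg _) (norm_nonneg _)
      (hcsle a) (by rw [abs_neg, ← e3]; exact hcsle (a + t))
    rw [neg_neg] at h9
    have e4 : a + t - a = t := by ring
    rw [e4]
    exact h9
  · refine lintegral_congr fun t => ?_
    rw [ri_deriv H hu v t, ri_inner H u (H.fl t v),
      ← ENNReal.ofReal_mul (abs_nonneg _), abs_mul, abs_norm]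
    congr 1
    ring

private theorem ri3_add (Φ₁ Φ₂ : Ev n × Ev n → ℝ≥0∞) (h₁ : Measurable Φ₁) :
    H.SM (fun v => Φ₁ v + Φ₂ v) = H.SM Φ₁ + H.SM Φ₂ := by
  have := isFiniteMeasure_toSphere n
  unfold SM
  have hj : Measurable (fun p : Ev n × Metric.sphere (0 : Ev n) 1 => (p.1, (p.2 : Ev n))) :=
    measurable_fst.prodMk (measurable_subtype_coe.comp measurable_snd)
  have hi : ∀ x, ∫⁻ ω : Metric.sphere (0 : Ev n) 1, (Φ₁ (x, (ω : Ev n)) + Φ₂ (x, (ω : Ev n)))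
      ∂(volume : Measure (Ev n)).toSphere
      = (∫⁻ ω : Metric.sphere (0 : Ev n) 1, Φ₁ (x, (ω : Ev n))
          ∂(volume : Measure (Ev n)).toSphere)
        + ∫⁻ ω : Metric.sphere (0 : Ev n) 1, Φ₂ (x, (ω : Ev n))
          ∂(volume : Measure (Ev n)).toSphere := fun x =>
    lintegral_add_left ((h₁.comp hj).comp measurable_prodMk_left) _
  rw [lintegral_congr hi]
  exact lintegral_add_left (h₁.comp hj).lintegral_prod_right' _

private theorem ri3_meas {Φ : Ev n × Ev n → ℝ≥0∞} (hΦ : Measurable Φ) :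
    Measurable (fun v : Ev n × Ev n => ∫⁻ s : ℝ, Φ (H.fl s v)) := by
  have hc : Continuous (fun p : (Ev n × Ev n) × ℝ => H.fl p.2 p.1) :=
    H.fl_cont.comp (continuous_snd.prodMk continuous_fst)
  have hm : Measurable (fun p : (Ev n × Ev n) × ℝ => Φ (H.fl p.2 p.1)) := hΦ.comp hc.measurable
  exact hm.lintegral_prod_right'

private theorem ri3_const (c : ℝ≥0∞) (hc : c ≠ ∞) (Φ : Ev n × Ev n → ℝ≥0∞) :
    c * H.SM Φ = H.SM (fun v => c * Φ v) := by
  unfold SM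
  rw [← lintegral_const_mul' _ _ hc]
  refine lintegral_congr fun x => ?_
  rw [← lintegral_const_mul' _ _ hc]

private theorem ri3_mono {Φ₁ Φ₂ : Ev n × Ev n → ℝ≥0∞}
    (h : ∀ v : Ev n × Ev n, ‖v.2‖ = 1 → Φ₁ v ≤ Φ₂ v) : H.SM Φ₁ ≤ H.SM Φ₂ := by
  unfold SM
  exact lintegral_mono fun x => lintegral_mono fun ω =>
    h (x, (ω : Ev n)) (norm_eq_of_mem_sphere ω)

/-- lower bound -/
theorem flat_lower (hn : 2 ≤ n) {K : Set (Ev n)} (hK : IsCompact K) {u : Ev n → ℝ}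
    (hu : ContDiff ℝ 1 u) (hs : tsupport u ⊆ K) (h0 : ∀ y, 0 ≤ u y) (h1 : ∀ y, u y ≤ 1)
    {ρ₀ : ℝ} (hρ : 0 < ρ₀) :
    ENNReal.ofReal (ρ₀ ^ (n - 1) * (k.d / ρ₀) * (n * om n * ∫ x, u x ^ 2 ∂H.vol))
      ≤ H.SM (H.LkF (mker n k.d k.f) u ρ₀) + ENNReal.ofReal (ρ₀ ^ (n - 1) * (k.K' * H.A u)) := by
  have hn1 : 1 ≤ n := by omega
  have hsc : HasCompactSupport u := hK.of_isClosed_subset (isClosed_tsupport u) hs
  have hp : 0 ≤ ρ₀ ^ (n - 1) * (k.d / ρ₀) :=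
    mul_nonneg (pow_pos hρ _).le (div_pos k.d_pos hρ).le
  obtain ⟨W, hW, hW1⟩ := H.exists_weight_one hK
  -- the three functions
  set Φ₁ : Ev n × Ev n → ℝ≥0∞ := fun v => ENNReal.ofReal (u v.1 ^ 2) with hΦ₁
  set Φ₃ : Ev n × Ev n → ℝ≥0∞ := fun v => ENNReal.ofReal (ρ₀ ^ (n - 1) * (‖H.gr u v.1‖
      * (|H.cs u v| * k.f |H.cs u v|))) with hΦ₃
  have m₁ : Measurable Φ₁ :=
    (ENNReal.continuous_ofReal.comp ((hu.continuous.comp continuous_fst).pow 2)).measurable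
  have m₂ : Measurable (H.LkF (mker n k.d k.f) u ρ₀) := H.LkF_measurable hu (mker_measurable n k.d k.f_cont) ρ₀
  have m₃ : Measurable Φ₃ := by
    have hcs : Measurable (fun v => |H.cs u v|) := (H.cs_measurable hu).abs
    have hg : Measurable (fun v : Ev n × Ev n => ‖H.gr u v.1‖) :=
      ((H.gr_cont hu).norm.comp continuous_fst).measurable
    exact ((hg.mul (hcs.mul (k.f_cont.measurable.comp hcs))).const_mul _).ennreal_ofReal
  have z₁ : ∀ v : Ev n × Ev n, v.1 ∉ K → Φ₁ v = 0 := by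
    intro v hv
    show ENNReal.ofReal (u v.1 ^ 2) = 0
    rw [image_eq_zero_of_notMem_tsupport (fun h => hv (hs h))]
    norm_num
  have z₂ : ∀ v : Ev n × Ev n, v.1 ∉ K → H.LkF (mker n k.d k.f) u ρ₀ v = 0 := by
    intro v hv
    unfold HData.LkF
    rw [H.gr_zero_of_not_mem (fun h => hv (hs h))]
    simp
  have z₃ : ∀ v : Ev n × Ev n, v.1 ∉ K → Φ₃ v = 0 := by
    intro v hv
    show ENNReal.ofReal (ρ₀ ^ (n - 1) * (‖H.gr u v.1‖ * (|H.cs u v| * k.f |H.cs u v|))) = 0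
    rw [H.gr_zero_of_not_mem (fun h => hv (hs h)), norm_zero, zero_mul, mul_zero,
      ENNReal.ofReal_zero]
  have w₁ := H.SM_weight hn1 W hW hW1 Φ₁ m₁ z₁
  have w₂ := H.SM_weight hn1 W hW hW1 (H.LkF (mker n k.d k.f) u ρ₀) m₂ z₂
  have w₃ := H.SM_weight hn1 W hW hW1 Φ₃ m₃ z₃
  have hL : ENNReal.ofReal (ρ₀ ^ (n - 1) * (k.d / ρ₀) * (n * om n * ∫ x, u x ^ 2 ∂H.vol))
      = ENNReal.ofReal (ρ₀ ^ (n - 1) * (k.d / ρ₀)) * H.SM Φ₁ := by
    rw [ENNReal.ofReal_mul hp, H.SM_base hu.continuous hsc]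
  rw [hL, ← w₁, H.ri3_const _ ENNReal.ofReal_ne_top]
  have hmono : H.SM (fun v => ENNReal.ofReal (ρ₀ ^ (n - 1) * (k.d / ρ₀))
        * (W v * ∫⁻ s : ℝ, Φ₁ (H.fl s v)))
      ≤ H.SM (fun v => W v * (∫⁻ s : ℝ, H.LkF (mker n k.d k.f) u ρ₀ (H.fl s v))
        + W v * ∫⁻ s : ℝ, Φ₃ (H.fl s v)) := by
    refine H.ri3_mono fun v hv => ?_
    rw [mul_left_comm, ← mul_add]
    exact mul_le_mul' le_rfl (H.line_ineq_m k hn1 hK hu hs h0 h1 hρ v hv)
  refine hmono.trans ?_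
  rw [H.ri3_add (fun v => W v * ∫⁻ s : ℝ, H.LkF (mker n k.d k.f) u ρ₀ (H.fl s v))
    (fun v => W v * ∫⁻ s : ℝ, Φ₃ (H.fl s v)) (hW.mul (H.ri3_meas m₂)), w₂, w₃]
  exact add_le_add le_rfl (H.SM_boundary k hu hsc hρ)

end HData

end Vale.Agent.Lib.P219
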