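import Vale.Agent.Lib.P219.A.Basic
import Vale.Agent.Lib.P219.Ri.Line

/-!
# P219 rigidity: consequences of a vanishing defect

Let `r = ‖w‖ / R > 0`, `a = -⟨ν', ve⟩/‖w‖`, `b = ⟨ν, w⟩/‖w‖`, `|a|, |b| ≤ 1` (`norm_ve`),
`m = mker n c.d c.f r a b`.  `0 < c.B r a b ≤ m / th ≤ m`, so `m > 0`, which forces `a, b > 0`,
`D = c.d r - c.f a - c.f b > 0` and `m r^(n-1) = a b D ≤ c.B r a b r^(n-1)` (`c.B_lower`), i.e.
`m ≤ c.B`.  Hence `c.B = m = m / th`, so `th = 1` and `c.strict` gives `r = 2 b`, i.e.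
`‖w‖² = 2 R ⟨ν, w⟩`.
-/

namespace Vale.Agent.Lib.P219

open MeasureTheory Set Filter Topology
open scoped ENNReal

/-- positivity of the chord kernel forces positivity of all its factors -/
private theorem zero_mker_pos {n : ℕ} {d : ℝ} {f : ℝ → ℝ} {r a b : ℝ}
    (h : 0 < mker n d f r a b) :
    0 < a ∧ 0 < b ∧ mker n d f r a b = a * b * (d * r - f a - f b) / r ^ (n - 1) := by
  have ha : 0 < a := by
    by_contra h0
    have h1 : max a 0 = 0 := max_eq_right (not_lt.1 h0)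
    have h2 : mker n d f r a b = 0 := by
      unfold mker
      rw [h1, zero_mul, zero_mul, zero_div]
    exact absurd h (by rw [h2]; exact lt_irrefl _)
  have hb : 0 < b := by
    by_contra h0
    have h1 : max b 0 = 0 := max_eq_right (not_lt.1 h0)
    have h2 : mker n d f r a b = 0 := by
      unfold mker
      rw [h1, mul_zero, zero_mul, zero_div]
    exact absurd h (by rw [h2]; exact lt_irrefl _)
  have hD : 0 < d * r - f |a| - f |b| := by
    by_contra h0
    have h1 : max (d * r - f |a| - f |b|) 0 = 0 := max_eq_right (not_lt.1 h0)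
    have h2 : mker n d f r a b = 0 := by
      unfold mker
      rw [h1, mul_zero, zero_div]
    exact absurd h (by rw [h2]; exact lt_irrefl _)
  refine ⟨ha, hb, ?_⟩
  unfold mker
  rw [max_eq_left ha.le, max_eq_left hb.le, max_eq_left hD.le, abs_of_pos ha, abs_of_pos hb]

/-- the scalar core: a nonpositive defect forces `th = 1` and `r = 2 y` -/
private theorem zero_core {n : ℕ} {c : RawCert n} (hc : c.Strict) {r x y t : ℝ} (hr : 0 < r)
    (hx : |x| ≤ 1) (hy : |y| ≤ 1) (ht : 1 ≤ t)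
    (h : c.B r x y - mker n c.d c.f r x y / t ≤ 0) : t = 1 ∧ r = 2 * y := by
  have ht0 : 0 < t := lt_of_lt_of_le one_pos ht
  have hB : 0 < c.B r x y := hc.B_pos r x y hr hx hy
  have hle : c.B r x y ≤ mker n c.d c.f r x y / t := by linarith
  have hmt : 0 < mker n c.d c.f r x y / t := lt_of_lt_of_le hB hle
  have hm : 0 < mker n c.d c.f r x y := by
    have h1 := mul_pos hmt ht0
    rwa [div_mul_cancel₀ _ ht0.ne'] at h1
  obtain ⟨hx0, hy0, hm1⟩ := zero_mker_pos hm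
  have hrn : 0 < r ^ (n - 1) := pow_pos hr _
  have hlow : x * y * (c.d * r - c.f x - c.f y) ≤ c.B r x y * r ^ (n - 1) :=
    c.B_lower r x y hr hx0 (le_trans (le_abs_self x) hx) hy0 (le_trans (le_abs_self y) hy)
  have hmB : mker n c.d c.f r x y ≤ c.B r x y := by
    rw [hm1, div_le_iff₀ hrn]
    exact hlow
  have hmm : mker n c.d c.f r x y / t ≤ mker n c.d c.f r x y := div_le_self hm.le ht
  have e1 : c.B r x y = mker n c.d c.f r x y := le_antisymm (hle.trans hmm) hmB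
  have e2 : mker n c.d c.f r x y / t = mker n c.d c.f r x y :=
    le_antisymm hmm (hmB.trans hle)
  refine ⟨?_, ?_⟩
  · have h3 := (div_eq_iff ht0.ne').1 e2
    have h4 : mker n c.d c.f r x y * t = mker n c.d c.f r x y * 1 := by rw [mul_one]; exact h3.symm
    exact mul_left_cancel₀ hm.ne' h4
  · apply hc.strict r x y hr hx0 (le_trans (le_abs_self x) hx) hy0 (le_trans (le_abs_self y) hy)
    rw [e1, hm1, div_mul_cancel₀ _ hrn.ne']

/-- a quotient `⟨u, v⟩ / ‖w‖` with `‖u‖ = 1`, `‖v‖ = ‖w‖` is a cosine -/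
private theorem zero_abs_le {n : ℕ} {u v w : Ev n} (hu : ‖u‖ = 1) (hv : ‖v‖ = ‖w‖)
    (hw : 0 < ‖w‖) : |inner ℝ u v / ‖w‖| ≤ 1 := by
  rw [abs_div, abs_of_pos hw, div_le_one hw]
  have h1 := abs_real_inner_le_norm u v
  rwa [hu, one_mul, hv] at h1

namespace HData

variable {n : ℕ} (H : HData n)

theorem of_Eraw_le {c : RawCert n} (hc : c.Strict) {R : ℝ} (hR : 0 < R) {p w ν ν' : Ev n}
    (hw : w ≠ 0) (hν : ‖ν‖ = 1) (hν' : ‖ν'‖ = 1) (h : H.Eraw c R p w ν ν' ≤ 0) :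
    H.th p w = 1 ∧ ‖w‖ ^ 2 = 2 * R * inner ℝ ν w := by
  have hw0 : 0 < ‖w‖ := norm_pos_iff.2 hw
  have hx : |-(inner ℝ ν' (H.ve p w)) / ‖w‖| ≤ 1 := by
    rw [neg_div, abs_neg]
    exact zero_abs_le hν' (H.norm_ve p w) hw0
  have hy : |inner ℝ ν w / ‖w‖| ≤ 1 := zero_abs_le hν rfl hw0
  unfold HData.Eraw at h
  obtain ⟨h1, h2⟩ := zero_core hc (div_pos hw0 hR) hx hy (H.one_le_th p w) h
  refine ⟨h1, ?_⟩
  have h3 := (div_eq_iff hR.ne').1 h2
  have h4 : ‖w‖ * ‖w‖ = 2 * (inner ℝ ν w / ‖w‖) * R * ‖w‖ := by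
    rw [← h3]
  rw [pow_two, h4]
  field_simp

end HData

end Vale.Agent.Lib.P219
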