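import Mathlib.AlgebraicTopology.FundamentalGroupoid.SimplyConnected
import Vale.Agent.Lib.P219.Ri.Seq
import Vale.Agent.Lib.P219.Ri.SeqLim
import Vale.Agent.Lib.P219.Ri.Mass
import Vale.Agent.Lib.P219.Ri.Pick
import Vale.Agent.Lib.P219.Ri.Limit
import Vale.Agent.Lib.P219.Ri.Zero
import Vale.Agent.Lib.P219.Ri.Iso
import Vale.Agent.Lib.P219.Ri.Cut

/-!
# P219 rigidity: boundary pairs of an extremal domain

Put together: `exists_minSeq`, `Def_small` with the cutoffs (`exists_cut`; for `CutOf δ k`: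
`k.a n ω - (k.d ω - k.K') = c.d δ n ω`), `mass_lower` for all boundary points (regularity of `Ω`:
every ball around `p ∈ frontier Ω` contains a ball in `Ω` and, as `p ∉ interior (closure Ω)`, a ball
in the complement), `exists_pick`, `limit_pair`, `of_Eraw_le` (`q = p`: `w = 0`, `th p 0 = 1` from
`P_zero`), `ball_of_boundary`.  `frontier Ω ≠ ∅` since `Ω` is bounded, open, nonempty and `ℝ^n` is
connected.
-/

namespace Vale.Agent.Lib.P219

open MeasureTheory Set Filter Topology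
open scoped ENNReal ContDiff

variable {n : ℕ} {g : Ev n → (Ev n →L[ℝ] Ev n →L[ℝ] ℝ)}

private theorem bdry_th_zero (H : HData n) (p : Ev n) : H.th p 0 = 1 := by
  have h : H.P p 0 = ContinuousLinearMap.id ℝ (Ev n) := by
    ext1 ξ
    rw [H.P_zero]
    rfl
  have h2 : (ContinuousLinearMap.id ℝ (Ev n)).det = 1 := by
    show LinearMap.det (LinearMap.id : Ev n →ₗ[ℝ] Ev n) = 1
    exact LinearMap.det_id
  unfold HData.th
  rw [h, h2, abs_one]

private theorem bdry_mass {H : HData n} {Ω K : Set (Ev n)} {u : ℕ → Ev n → ℝ}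
    (hS : H.MinSeq Ω K u) (hK : IsCompact K) (hΩ : Bornology.IsBounded Ω) (ho : IsOpen Ω)
    (hreg : interior (closure Ω) ⊆ Ω) {p : Ev n} (hp : p ∈ frontier Ω) : HData.HasMass H u p := by
  intro δ hδ
  have hpc : p ∈ closure Ω := frontier_subset_closure hp
  have hpn : p ∉ Ω := by
    rw [ho.frontier_eq] at hp
    exact hp.2
  have hpi : p ∉ interior (closure Ω) := fun h => hpn (hreg h)
  obtain ⟨p0, hp0, hd0⟩ := Metric.mem_closure_iff.mp hpc δ hδ
  have hpc2 : p ∈ closure ((closure Ω)ᶜ) := by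
    rw [closure_compl]
    exact hpi
  obtain ⟨p1, hp1, hd1⟩ := Metric.mem_closure_iff.mp hpc2 δ hδ
  have ho0 : IsOpen (Metric.ball p δ ∩ Ω) := Metric.isOpen_ball.inter ho
  have ho1 : IsOpen (Metric.ball p δ ∩ (closure Ω)ᶜ) :=
    Metric.isOpen_ball.inter isClosed_closure.isOpen_compl
  obtain ⟨r0, hr0, hb0⟩ := Metric.isOpen_iff.mp ho0 p0
    ⟨by rw [Metric.mem_ball, dist_comm]; exact hd0, hp0⟩
  obtain ⟨r1, hr1, hb1⟩ := Metric.isOpen_iff.mp ho1 p1
    ⟨by rw [Metric.mem_ball, dist_comm]; exact hd1, hp1⟩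
  refine H.mass_lower hS hK hΩ ho.measurableSet (r := min r0 r1) (lt_min hr0 hr1) (p0 := p0)
    (p1 := p1) ((Metric.ball_subset_ball (min_le_left _ _)).trans hb0) ?_
  intro x hx
  have hx1 := hb1 (Metric.ball_subset_ball (min_le_right _ _) hx)
  exact ⟨hx1.1, fun h => hx1.2 (subset_closure h)⟩

theorem rigidity_HData (hn : 2 ≤ n) {c : RawCert n} (hc : c.Strict) (hg : IsMetric g) {H : HData n}
    (hH : Represents H g) {Ω : Set (Ev n)} (hΩ : Bornology.IsBounded Ω) (ho : IsOpen Ω)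
    (hreg : interior (closure Ω) ⊆ Ω) (hne : Ω.Nonempty)
    (heq : per g Ω = ENNReal.ofReal (n * om n ^ ((1 : ℝ) / n))
      * (gvol g Ω) ^ (((n : ℝ) - 1) / n)) :
    ∃ (p ν : Ev n) (R : ℝ), 0 < R ∧ H.Ex p '' Metric.ball (R • ν) R = Ω ∧
      ∀ w ∈ Metric.ball (R • ν) R, ∀ ξ, ‖H.P p w ξ‖ = ‖ξ‖ := by
  have hk : HasKer n := hasKer_of_raw hn c
  have hm : MeasurableSet Ω := ho.measurableSet
  have hop := H.vol_isOpenPosMeasure
  have hfc := H.vol_isFiniteMeasureOnCompacts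
  have hpos0 : H.vol Ω ≠ 0 := (ho.measure_pos H.vol hne).ne'
  have hfin : H.vol Ω ≠ ⊤ := by
    have h1 : H.vol (closure Ω) < ⊤ := hΩ.isCompact_closure.measure_lt_top
    exact ((measure_mono subset_closure).trans_lt h1).ne
  have hpos : 0 < (H.vol Ω).toReal := ENNReal.toReal_pos hpos0 hfin
  obtain ⟨K, hK, hconv, u, hS⟩ := exists_minSeq hn hk hg hH hΩ hm hpos0 heq
  set m : ℝ := (H.vol Ω).toReal with hmdef
  have hR : 0 < rad n m := HData.rad_pos hn hpos
  have hρ : Tendsto (fun j => n * H.V (u j) / H.A (u j)) atTop (𝓝 (rad n m)) :=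
    HData.MinSeq.rho_lim H hn hS hK hΩ hm hpos
  have hmass : ∀ p ∈ frontier Ω, HData.HasMass H u p := fun p hp =>
    bdry_mass hS hK hΩ ho hreg hp
  have hnt : Nontrivial (Ev n) := by
    refine ⟨⟨EuclideanSpace.single (⟨0, by omega⟩ : Fin n) (1 : ℝ), 0, fun h => ?_⟩⟩
    have h1 := congrArg (fun v : Ev n => v (⟨0, by omega⟩ : Fin n)) h
    simp at h1
  have hfr : (frontier Ω).Nonempty := by
    rw [nonempty_frontier_iff]
    refine ⟨hne, fun h => ?_⟩
    rw [h] at hΩ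
    exact NormedSpace.unbounded_univ ℝ (Ev n) hΩ
  obtain ⟨p, hp⟩ := hfr
  have hom : 0 ≤ om n := ENNReal.toReal_nonneg
  set C : ℝ := n * om n * rad n m ^ (2 * (n - 1)) * (c.d * (n * om n)) with hCdef
  have hC : 0 ≤ C := by
    have h1 := c.d_pos
    have h2 := hR.le
    positivity
  have hdef : ∀ δ > 0, ∀ k : Ker n, c.CutOf δ k → ∀ η > 0, ∀ᶠ j in atTop,
      H.Def k (u j) (n * H.V (u j) / H.A (u j)) ≤ ENNReal.ofReal (C * δ + η) := by
    intro δ hδ k hcut η hη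
    have h1 := HData.MinSeq.Def_small H hn hk k hS hK hconv hΩ hm hpos hη
    filter_upwards [h1] with j hj
    refine hj.trans (le_of_eq ?_)
    congr 1
    rw [hcut.a_eq, hcut.d_eq, hcut.K_eq, hCdef, ← hmdef]
    ring
  obtain ⟨δ, k, j, x, ν, hδ, hδ0, hcutl, hj, hx, hgr, hν, hνl, hG⟩ :=
    H.exists_pick c hS.smooth hC (fun δ hδ => c.exists_cut hδ) hdef (hmass p hp)
  have hall : ∀ q ∈ frontier Ω, ∀ w, H.Ex p w = q →
      H.th p w = 1 ∧ ‖w‖ ^ 2 = 2 * rad n m * inner ℝ ν w := by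
    intro q hq w hw
    by_cases hw0 : w = 0
    · rw [hw0, bdry_th_zero]
      simp
    · obtain ⟨ν', hν', hE⟩ := H.limit_pair c hS.smooth hR hρ hδ hδ0 hcutl hj hx hgr hν hνl hG
        hw0 hw (hmass q hq)
      exact H.of_Eraw_le hc hR hw0 hν hν' hE
  obtain ⟨h1, h2⟩ := H.ball_of_boundary hn hΩ ho hne hR hν hall
  exact ⟨p, ν, rad n m, hR, h1, h2⟩

end Vale.Agent.Lib.P219
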