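import Vale.Agent.Lib.P219.Co.Defs

/-!
# P219: the equality case in global coordinates
-/

open scoped ContDiff ENNReal
open MeasureTheory

namespace Vale.Agent.Lib.P219.Co

/-- `(Ω, g)` is isometric to the Euclidean ball of radius `R`: there is a smooth map `φ`, bijective
from the ball onto `Ω`, with `g_kl(φ) ∂_i φ^k ∂_j φ^l = δ_ij` on the ball. -/
def IsometricToBall {n : ℕ} (g : E n → Matrix (Fin n) (Fin n) ℝ) (Ω : Set (E n)) (R : ℝ) : Prop :=
  ∃ φ : E n → E n, ContDiff ℝ ∞ φ ∧ Set.BijOn φ (Metric.ball 0 R) Ω ∧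
    ∀ w ∈ Metric.ball (0 : E n) R, ∀ i j,
      ∑ k, ∑ l, g (φ w) k l * pd i (fun y => φ y k) w * pd j (fun y => φ y l) w
        = if i = j then 1 else 0

/-- The equality case of the Cartan-Hadamard conjecture in dimension `n` (`κ = 0`): a domain with
smooth boundary for which the isoperimetric inequality is an equality is isometric to a Euclidean
ball. -/
def CartanHadamardRigidity (n : ℕ) : Prop :=
  ∀ g : E n → Matrix (Fin n) (Fin n) ℝ, IsCartanHadamard g →
    ∀ ρ : E n → ℝ, IsDefiningFunction ρ → area g ρ = profile n (vol g {x | ρ x < 0}) →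
      ∃ R : ℝ, 0 ≤ R ∧ IsometricToBall g {x | ρ x < 0} R

end Vale.Agent.Lib.P219.Co
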