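import Vale.Agent.Lib.P219.Co.Main
import Vale.Agent.Lib.P219.Ri.CoDefs
import Vale.Agent.Lib.P219.Ri.Main

/-!
# P219: the equality case in global coordinates
-/

open scoped ContDiff ENNReal
open MeasureTheory

namespace Vale.Agent.Lib.P219.Co

theorem isometricToBall_empty {n : ℕ} (g : E n → Matrix (Fin n) (Fin n) ℝ) :
    IsometricToBall g ∅ 0 := by
  refine ⟨id, contDiff_id, ?_, ?_⟩
  · rw [Metric.ball_zero]
    exact Set.bijOn_empty _
  · intro w hw
    rw [Metric.ball_zero] at hw
    exact absurd hw (Set.notMem_empty _)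

theorem fderiv_coord {n : ℕ} {φ : E n → E n} (hφ : ContDiff ℝ ∞ φ) (w : E n) (i k : Fin n) :
    fderiv ℝ φ w (EuclideanSpace.single i 1) k = pd i (fun y => φ y k) w := by
  have hd : DifferentiableAt ℝ φ w := hφ.differentiable (by simp) w
  have h := ((EuclideanSpace.proj (𝕜 := ℝ) k : E n →L[ℝ] ℝ).hasFDerivAt.comp w hd.hasFDerivAt)
  have h1 : fderiv ℝ (fun y => φ y k) w
      = (EuclideanSpace.proj (𝕜 := ℝ) k : E n →L[ℝ] ℝ).comp (fderiv ℝ φ w) := h.fderiv
  unfold pd
  rw [h1]
  rfl

theorem rigidity_of_strict {n : ℕ} (hn : 2 ≤ n) {c : RawCert n} (hc : c.Strict) :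
    CartanHadamardRigidity n := by
  intro g hg ρ hρ heq
  by_cases hne : {x | ρ x < 0}.Nonempty
  · have hCH := isCH_of_coord hg
    have heq' : P219G.area (toG g) ρ = ENNReal.ofReal (n * om n ^ ((1 : ℝ) / n))
        * (gvol (toG g) {x | ρ x < 0}) ^ (((n : ℝ) - 1) / n) := by
      rw [area_toG hg.metric hρ, gvol_toG]
      exact heq
    obtain ⟨R, φ, hR, hφ, hinj, him, hiso⟩ := rigidity_area hn hc (toG g) (toΓ g) hCH ρ
      (isDefiningFunction_iff ρ hρ) hne heq'
    refine ⟨R, hR.le, φ, hφ, ?_, ?_⟩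
    · rw [← him]
      exact hinj.injOn.bijOn_image
    · intro w hw i j
      have h1 := hiso w hw (EuclideanSpace.single i 1) (EuclideanSpace.single j 1)
      have h2 : toG g (φ w) (fderiv ℝ φ w (EuclideanSpace.single i 1))
          (fderiv ℝ φ w (EuclideanSpace.single j 1))
          = ∑ k, ∑ l, g (φ w) k l * fderiv ℝ φ w (EuclideanSpace.single i 1) k
            * fderiv ℝ φ w (EuclideanSpace.single j 1) l := bil_apply _ _ _
      rw [h2] at h1
      simp only [fderiv_coord hφ] at h1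
      rw [h1, EuclideanSpace.inner_single_left]
      simp [Pi.single_apply]
  · rw [Set.not_nonempty_iff_eq_empty] at hne
    rw [hne]
    exact ⟨0, le_rfl, isometricToBall_empty g⟩

end Vale.Agent.Lib.P219.Co
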